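import Vale.Agent.P088.R2.H960.X.Cw2

/-!
# Zone C, region I: the row `RowCW`, the cells of the true weight
-/

open Set Filter
open scoped ContDiff Topology Matrix

noncomputable section

namespace Vale.Agent.P088.R2.H960.X

open Vale.Agent.P088.LR Vale.Agent.P088.HY Vale.Agent.P088.R2.H644 Vale.Agent.P088.R2
open Vale.Agent.P088.R2.H31.EP
open Vale.Agent.P088.R2.H238.C (Th Te Gp Gz Gz1 Gz2 LI ww U₁ N₁)
open Vale.Agent.P088.R2.H960.C (Bd nq dQ dP nq_nn dQ_nn dP_nn dQ_le nx ny nm qi_le dqi_le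
  hv_comp mid_va mid_vb va vb mv nq_sq vq_norm)
open Vale.Agent.P088.R2.H464.Cu (mid dif bf rq dg Hv)
open Vale.Agent.P088.R2.H205.CP (OI)
open Vale.Agent.P088.R2.H313.Mu (b0 sw sz)
open Vale.Agent.P088.R2.H657.W (cG cG_nn)

variable {n : ℕ} {q : Cst} {d : Pk n} {z z' : VV n}

/-- The functions of the level. -/
def wF (d : Pk n) : H205.CP.WF :=
  ⟨d.Φ, deriv d.Φ, deriv (deriv d.Φ), iteratedDeriv 3 d.Φ, iteratedDeriv 4 d.Φ,
    Real.exp, Real.exp, Real.exp, Real.exp, Real.exp⟩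

/-- The constant of `K`. -/
def Cq (q : Cst) : ℝ := |q.ph.Ct 1| + |q.ph.Ct 2| + 1

theorem Cq_pos (q : Cst) : 0 < Cq q := by unfold Cq; positivity

theorem wd_wF (h : PkOk q d) (T : Th q) : H205.CP.WD 1 (Cq q) (wF d) (Iic (d.uta q)) where
  sm := h.top.sm
  d1 s := ((h.top.sm.differentiable (by simp)) s).hasDerivAt
  d2 := H238.C.dPhi_hd h
  d3 := H238.C.ddPhi_hd h
  d4 s := by
    have e3 : iteratedDeriv 3 d.Φ = deriv (deriv (deriv d.Φ)) := by
      rw [iteratedDeriv_succ, iteratedDeriv_succ, iteratedDeriv_one]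
    have h0 : ContDiff ℝ ∞ (deriv (deriv (deriv d.Φ))) :=
      (contDiff_infty_iff_deriv.1 (contDiff_infty_iff_deriv.1 (H238.C.dPhi_sm h)).2).2
    have h1 : Differentiable ℝ (iteratedDeriv 3 d.Φ) := by
      rw [e3]
      exact h0.differentiable (by simp)
    have h2 := (h1 s).hasDerivAt
    have e : iteratedDeriv 4 d.Φ s = deriv (iteratedDeriv 3 d.Φ) s := by
      rw [iteratedDeriv_succ]
    show HasDerivAt (iteratedDeriv 3 d.Φ) (iteratedDeriv 4 d.Φ s) s
    rw [e]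
    exact h2
  sg := Real.contDiff_exp
  e1 := Real.hasDerivAt_exp
  e2 := Real.hasDerivAt_exp
  e3 := Real.hasDerivAt_exp
  e4 := Real.hasDerivAt_exp
  gp s _ := Real.exp_pos s
  np s _ := H238.C.N_pos h T s
  kp s _ := H238.C.K_pos h s
  kn s hs := by
    show deriv (deriv d.Φ) s ≤ 3 * deriv d.Φ s
    have h1 := h.top.k1 s hs
    have h2 := H238.C.N_pos h T s
    linarith
  kd s hs := by
    show |iteratedDeriv 3 d.Φ s| ≤ Cq q * deriv (deriv d.Φ) s ∧
      |iteratedDeriv 4 d.Φ s| ≤ Cq q * deriv (deriv d.Φ) s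
    have hK := (H238.C.K_pos h s).le
    constructor
    · refine (h.top.kd 1 s hs).trans (mul_le_mul_of_nonneg_right ?_ hK)
      unfold Cq
      have := le_abs_self (q.ph.Ct 1)
      have := abs_nonneg (q.ph.Ct 2)
      linarith
    · refine (h.top.kd 2 s hs).trans (mul_le_mul_of_nonneg_right ?_ hK)
      unfold Cq
      have := le_abs_self (q.ph.Ct 2)
      have := abs_nonneg (q.ph.Ct 1)
      linarith
  g1 s _ := by
    show |Real.exp s - Real.exp s| ≤ 1 * Real.exp s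
    simp [Real.exp_nonneg]
  g2 s _ := by
    show |Real.exp s - Real.exp s| ≤ 1 * Real.exp s
    simp [Real.exp_nonneg]
  g3 s _ := by
    show |Real.exp s - Real.exp s| ≤ 1 * Real.exp s
    simp [Real.exp_nonneg]
  g4 s _ := by
    show |Real.exp s - Real.exp s| ≤ 1 * Real.exp s
    simp [Real.exp_nonneg]

/-- The constants `L`, `C₃`, `A`. -/
def Lq (n : ℕ) : ℝ := 3 * n
def C3 (n : ℕ) (q : Cst) : ℝ := 2 * Cq q * Lq n + 4 * Lq n * (Cq q + 3) + 1
def Aq (n : ℕ) : ℝ := n * (1 + cG n 12)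

/-- The constant `C₂`. -/
def C2c (n : ℕ) : ℝ := (100 + 5 * n) * (Lq n ^ 2 * (1 + 2000) * (n : ℝ) ^ 2)

/-- The thresholds. -/
structure Tx (n : ℕ) (κ₀ c : ℝ) (K₀ : ℝ → ℝ) (q : Cst) : Prop where
  x1 : Real.exp 100 ≤ q.M₀
  x2 : 1 ≤ q.Cs
  x3 : 2 * q.aC * (muC 1 * b0 1 q.M₀) ≤ q.cl
  x4 : muC 1 * b0 1 q.M₀ * n ≤ 1 / 8
  x5 : max 1 (K₀ (C3 n q)) ≤ q.M₀ ^ (9 / 10 : ℝ)
  x6 : 10 * n ≤ q.R
  x7 : N₁ q * q.σ ≤ q.R
  x8 : 0 < q.e₁
  k0 : 0 < q.cK
  k1 : 3 * q.cK ≤ c
  c1 : 3 * q.c₀ ≤ c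
  c2 : 72000 * (n : ℝ) ^ 2 * q.c₀ ≤ 1 / 2
  c3 : 8640000 * (n : ℝ) ^ 2 * q.c₀ ≤ κ₀
  e1 : 12 * (n * (cG n 12 * q.ε)) ≤ κ₀
  e2 : (n : ℝ) ^ 2 * (cG n 12 * q.ε) ≤ 1
  r1 : Aq n / q.R ≤ 1 / (4 * (Cq q + 3))
  r2 : (n : ℝ) ^ 2 * (Aq n / q.R) ≤ 1
  r4 : 4 * (Aq n / q.R) ≤ κ₀
  r5 : 2 * Cq q * (Aq n / q.R) ≤ κ₀
  r7 : (60 * Lq n * (1 + 2000) * (n : ℝ) ^ 2 + 20) * (Aq n / q.R) ≤ κ₀ / 3
  r8 : 3 * ((n : ℝ) ^ 2 * c) * (Aq n / q.R) ≤ 1 / (4 * n)

theorem qq_sq (z : VV n) : qq z = HY.sq (z.1 - z.2) := rfl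

/-- The hypotheses of `cel_X`. -/
theorem hx (hn : 1 ≤ n) (h : PkOk q d) (T : Th q) (E : Te n q) {κ₀ c : ℝ} {K₀ : ℝ → ℝ} {lam : ℝ}
    (X : Tx n κ₀ c K₀ q) (hκ : 0 < κ₀) (hlam : lam ≤ 1 / C3 n q)
    (LL : ∀ z ∈ OI q d, LI q d z) :
    Hx n κ₀ 2000 (Cq q) (Lq n) (5 * n) (C2c n) (C3 n q) (cG n 12 * q.ε) (Aq n / q.R) (3 * q.c₀) c
      c (max 1 (K₀ (C3 n q))) lam (1 / (2 * n)) (wF d) (Iic (d.uta q)) (d.u q) (aI q) (bI q d)
      (gi d.s₁) (OI q d) := by
  have hn' : (1 : ℝ) ≤ n := by exact_mod_cast hn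
  have hR := T.R0
  have hR1 := T.R1
  have hCq := Cq_pos q
  have hL : 3 ≤ Lq n := by unfold Lq; linarith
  have hG := cG_nn n 12
  have hA : 1 ≤ Aq n := by unfold Aq; nlinarith
  have hAn : (n : ℝ) ≤ Aq n := by unfold Aq; nlinarith
  have hAG : cG n 12 ≤ Aq n := by unfold Aq; nlinarith
  have he : 0 ≤ Aq n / q.R := by positivity
  have h1R : 1 / q.R ≤ Aq n / q.R := div_le_div_of_nonneg_right hA hR.le
  have hnR : n / q.R ≤ Aq n / q.R := div_le_div_of_nonneg_right hAn hR.le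
  have hC3 : 1 ≤ C3 n q := by
    unfold C3
    have : 0 ≤ 2 * Cq q * Lq n := by positivity
    have : 0 ≤ 4 * Lq n * (Cq q + 3) := by positivity
    linarith
  have hlam1 : lam ≤ 1 := hlam.trans ((div_le_one (by linarith)).2 hC3)
  have hlam2 : Lq n * lam ≤ 1 / (4 * (Cq q + 3)) := by
    have h1 : Lq n * lam ≤ Lq n * (1 / C3 n q) := mul_le_mul_of_nonneg_left hlam (by linarith)
    refine h1.trans ?_
    rw [mul_one_div, div_le_div_iff₀ (by linarith) (by positivity)]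
    unfold C3
    have : 0 ≤ 2 * Cq q * Lq n := by positivity
    linarith
  have P : ∀ z ∈ OI q d, ∀ z' ∈ OI q d, dP z z' ≤ lam → P2 q d z z' := fun z hz z' hz' hd =>
    p2_of hn h T X.x6 (LL z hz) (LL z' hz') (hd.trans hlam1)
  have c0 := T.c0
  have c1 := T.c1
  have hqn : ∀ z ∈ OI q d, nq z ≤ 3 / 100 := fun z hz => by
    have := nq_le (LL z hz) T
    linarith
  have dU : ∀ z ∈ OI q d, ∀ z' ∈ OI q d, dP z z' ≤ lam →
      |d.u q z - d.u q z'| ≤ Lq n * dP z z' + Aq n / q.R * (nq z + nq z') * dQ z z' := by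
    intro z hz z' hz' hd
    refine (u_sub h T (P z hz z' hz' hd)).trans (add_le_add le_rfl ?_)
    have := nq_nn z
    have := nq_nn z'
    have := dQ_nn z z'
    gcongr
  have dU6 : ∀ z ∈ OI q d, ∀ z' ∈ OI q d, dP z z' ≤ lam → |d.u q z - d.u q z'| ≤ 1 / 6 := by
    intro z hz z' hz' hd
    have h1 := dU z hz z' hz' hd
    have h2 : Lq n * dP z z' ≤ Lq n * lam := mul_le_mul_of_nonneg_left hd (by linarith)
    have h3 : 1 / (4 * (Cq q + 3)) ≤ 1 / 12 := by
      apply one_div_le_one_div_of_le (by norm_num)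
      linarith
    have h4 : Aq n / q.R * (nq z + nq z') * dQ z z' ≤ Aq n / q.R * 1 * 1 := by
      have := nq_nn z
      have := nq_nn z'
      have := dQ_nn z z'
      have := dQ_le z z'
      have := hqn z hz
      have := hqn z' hz'
      gcongr <;> linarith
    have := X.r1
    linarith
  exact
    { sg := fun i j => H238.C.gi_sm h T E i j
      sy := (H238.C.gi_TR h T E).sy
      oc := ordConnected_Iic
      bd := fun z _ x _ => bd_TR (H238.C.gi_TR h T E) (by norm_num) (by linarith)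
        (mul_nonneg hG E.ε0.le) (by
          apply div_le_div_of_nonneg_right _ hR.le
          have := mul_le_mul_of_nonneg_left E.ε1 hG
          linarith) x
      ua := fun z hz i => hv_ua h T E (LL z hz).gz i
      ub := fun z hz i => hv_ub h T E (LL z hz).gz i
      uI := fun z hz => by
        show d.u q z ≤ d.uta q
        have := (LL z hz).nu.ut
        have := H238.C.uth_uta h T
        linarith
      kO := fun z hz => by
        show _ ≤ deriv (deriv d.Φ) (d.u q z)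
        refine (X.x5.trans ?_).trans (LL z hz).nu.Kl
        exact Real.rpow_le_rpow (by linarith [T.M1]) (LL z hz).nu.N1 (by norm_num)
      kE := fun z hz => by
        show deriv (deriv d.Φ) (d.u q z) ≤ Real.exp (d.u q z)
        refine (LL z hz).nu.KE.trans ?_
        have := T.aC1
        have := mul_le_mul_of_nonneg_right (show 3 * q.aC ≤ 1 by linarith)
          (Real.exp_nonneg (d.u q z))
        linarith
      nE := fun z hz => by
        show deriv d.Φ (d.u q z) ≤ Real.exp (d.u q z)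
        have h1 : deriv d.Φ (d.u q z) ≤ q.aC * Real.exp (d.u q z) := hz.2.2.1
        have := T.aC1
        have := mul_le_mul_of_nonneg_right (show q.aC ≤ 1 by linarith)
          (Real.exp_nonneg (d.u q z))
        linarith
      kn := fun z hz => by
        show deriv (deriv d.Φ) (d.u q z) ≤ 3 * deriv d.Φ (d.u q z)
        have h1 := (LL z hz).nu.Kn
        have h2 := H238.C.N_pos h T (d.u q z)
        linarith
      q0 := fun z hz => by
        have h2 := (LL z hz).δ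
        have h3 : HY.sq (z.1 - z.2) ≤ (3 * q.c₀) ^ 2 := by
          rw [← Real.sq_sqrt (H475.sq0 (z.1 - z.2))]
          exact pow_le_pow_left₀ (Real.sqrt_nonneg _) h2 2
        rw [qq_sq]
        exact h3.trans (pow_le_pow_left₀ (by linarith) X.c1 2)
      q1 := fun z hz => by
        have h2 := (LL z hz).δ
        rw [qq_sq, ← Real.sq_sqrt (H475.sq0 (z.1 - z.2))]
        exact pow_le_pow_left₀ (Real.sqrt_nonneg _) h2 2
      t0 := fun z hz => by
        show Real.exp (d.u q z) * qq z ≤ c * deriv (deriv d.Φ) (d.u q z)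
        have h1 : Real.exp (d.u q z) * d.r2 z ≤ 2 * q.cK * deriv (deriv d.Φ) (d.u q z) := hz.2.1
        have h2 := H238.C.r2_ge h T E z
        have hE := Real.exp_pos (d.u q z)
        have h3 := mul_le_mul_of_nonneg_left h2 hE.le
        have hK := (H238.C.K_pos h (d.u q z)).le
        have h4 := mul_le_mul_of_nonneg_right X.k1 hK
        have h5 := mul_nonneg X.k0.le hK
        have h6 : 0 ≤ Real.exp (d.u q z) * HY.sq (z.1 - z.2) := mul_nonneg hE.le (H475.sq0 _)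
        rw [qq_sq]
        linarith
      du := dU
      a0 := fun z _ i => (aI_le T z i).trans (mul_le_mul_of_nonneg_right h1R (nq_nn z))
      aa := fun z _ z' _ _ i => (aI_sub T z z' i).trans
        (mul_le_mul_of_nonneg_right h1R (dQ_nn z z'))
      b0 := fun z hz i => (bI_le h T (LL z hz) i).trans (by linarith)
      b1 := fun z hz z' hz' hd i => bI_sub h T (LL z hz) (P z hz z' hz' hd) X.x4 i
      b2 := fun z hz z' hz' hd i => bI_NK hn h T hz (LL z hz) (LL z' hz') (P z hz z' hz' hd)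
        X.x1 X.x2 X.x3 X.x7 (dU6 z hz z' hz' hd) i
      bb := fun z hz => bI_ge hn h T (LL z hz)
      hn := hn
      hC := by norm_num
      hCd := hCq
      hL := by linarith
      hH := by positivity
      hε := mul_nonneg hG E.ε0.le
      he := he
      hc1 := by linarith
      hc1' := by linarith
      hc2 := by
        have h1 : (3 * q.c₀) ^ 2 ≤ 9 * q.c₀ := by nlinarith
        have h2 := mul_le_mul_of_nonneg_left h1 (by positivity : 0 ≤ 2 * (n : ℝ) ^ 2)
        have := X.c2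
        have h3 : 0 ≤ (n : ℝ) ^ 2 * q.c₀ := by positivity
        linarith
      hc3 := by
        have h1 : (3 * q.c₀) ^ 2 ≤ 9 * q.c₀ := by nlinarith
        have h2 := mul_le_mul_of_nonneg_left h1 (by positivity : 0 ≤ 4000 * (n : ℝ) ^ 2)
        have := X.c2
        have h3 : 0 ≤ (n : ℝ) ^ 2 * q.c₀ := by positivity
        linarith
      hlam := hlam1
      hlam2 := hlam2
      he1 := X.r1
      he2 := X.r2
      he3 := X.e2
      he4 := X.r4
      he5 := X.r5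
      he7 := by
        have h1 : (3 * q.c₀) ^ 2 ≤ 9 * q.c₀ := by nlinarith
        have h2 := mul_le_mul_of_nonneg_left h1 (by positivity : 0 ≤ 320000 * (n : ℝ) ^ 2)
        have a1 := X.r7
        have a2 := X.e1
        have a3 := X.c3
        have h3 : 0 ≤ (n : ℝ) ^ 2 * q.c₀ := by positivity
        have e1 : 60 * Lq n * (1 + 2000) * (n : ℝ) ^ 2 * (Aq n / q.R) + 20 * (Aq n / q.R)
            = (60 * Lq n * (1 + 2000) * (n : ℝ) ^ 2 + 20) * (Aq n / q.R) := by ring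
        rw [e1]
        have e2 : 160 * 2000 * (n : ℝ) ^ 2 * (3 * q.c₀) ^ 2
            = 320000 * (n : ℝ) ^ 2 * (3 * q.c₀) ^ 2 := by ring
        rw [e2]
        linarith
      he8 := by
        have a1 := X.r8
        have e1 : 3 * ((n : ℝ) ^ 2 * (Aq n / q.R) * c) = 3 * ((n : ℝ) ^ 2 * c) * (Aq n / q.R) := by
          ring
        rw [e1]
        refine lt_of_le_of_lt a1 ?_
        apply one_div_lt_one_div_of_lt (by positivity)
        linarith
      K1 := le_max_left _ _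
      hC2 := le_rfl
      hC3 := by
        unfold C3
        have : 0 ≤ 4 * Lq n * (Cq q + 3) := by positivity
        linarith
      κ0 := hκ.le }

/-- The thresholds hold for all suitably chosen constants. -/
theorem ev_Tx (n : ℕ) (hn : 1 ≤ n) {κ₀ c : ℝ} (hκ : 0 < κ₀) (hc : 0 < c) (K₀ : ℝ → ℝ) :
    EvC (Tx n κ₀ c K₀) := by
  have hn' : (1 : ℝ) ≤ n := by exact_mod_cast hn
  have hG := cG_nn n 12
  -- small constants
  have key : ∀ a : ℝ, 0 ≤ a → ∀ b : ℝ, 0 < b → ∀ᶠ t in sml, a * t ≤ b := by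
    intro a ha b hb
    filter_upwards [sml_pos, sml_le (a := b / (a + 1)) (by positivity)] with t h1 h2
    rw [le_div_iff₀ (by positivity)] at h2
    nlinarith
  -- large radius
  have big : ∀ a : ℝ, ∀ b : ℝ, 0 < b → ∀ᶠ t in (atTop : Filter ℝ), a * (Aq n / t) ≤ b := by
    intro a b hb
    have h1 : Tendsto (fun t : ℝ => a * (Aq n / t)) atTop (𝓝 (a * 0)) :=
      (tendsto_const_nhds.div_atTop tendsto_id).const_mul a
    rw [mul_zero] at h1
    filter_upwards [h1.eventually_le_const hb] with t ht using ht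
  have p1 := EvC.pos
  have p2 := EvC.good
  have h3 := EvC.at_cK (fun _ t => 3 * t ≤ c) (fun _ => key 3 (by norm_num) c hc)
  have h4 := EvC.at_c₀ (fun _ t => (3 * t ≤ c ∧ 72000 * (n : ℝ) ^ 2 * t ≤ 1 / 2) ∧
    8640000 * (n : ℝ) ^ 2 * t ≤ κ₀) (fun _ =>
    ((key 3 (by norm_num) c hc).and (key (72000 * (n : ℝ) ^ 2) (by positivity) (1 / 2)
      (by norm_num))).and (key (8640000 * (n : ℝ) ^ 2) (by positivity) κ₀ hκ))
  have h5 := EvC.at_ε (fun _ t => 12 * (n * (cG n 12 * t)) ≤ κ₀ ∧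
    (n : ℝ) ^ 2 * (cG n 12 * t) ≤ 1) (fun _ => by
      have k1 := key (12 * (n * cG n 12)) (by positivity) κ₀ hκ
      have k2 := key ((n : ℝ) ^ 2 * cG n 12) (by positivity) 1 one_pos
      filter_upwards [k1, k2] with t a1 a2
      exact ⟨by linarith, by linarith⟩)
  have h6 := EvC.at_M₀ (fun q t => (0 < q.mc.cl → 2 * q.aC * (muC 1 * b0 1 t) ≤ q.mc.cl) ∧
    muC 1 * b0 1 t * n ≤ 1 / 8 ∧ max 1 (K₀ (C3 n q)) ≤ t ^ (9 / 10 : ℝ)) (fun q => by
      have k0 := b0_tendsto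
      have k1 : Tendsto (fun t => 2 * q.aC * (muC 1 * b0 1 t)) atTop (𝓝 (2 * q.aC * (muC 1 * 0))) :=
        (k0.const_mul _).const_mul _
      have k2 : Tendsto (fun t => muC 1 * b0 1 t * n) atTop (𝓝 (muC 1 * 0 * n)) :=
        (k0.const_mul _).mul_const _
      rw [mul_zero, mul_zero] at k1
      rw [mul_zero, zero_mul] at k2
      have k3 := (tendsto_rpow_atTop (by norm_num : (0 : ℝ) < 9 / 10)).eventually_ge_atTop
        (max 1 (K₀ (C3 n q)))
      have k4 := k2.eventually_le_const (by norm_num : (0 : ℝ) < 1 / 8)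
      by_cases hcl : 0 < q.mc.cl
      · filter_upwards [k1.eventually_le_const hcl, k3, k4] with t a1 a2 a3
        exact ⟨fun _ => a1, a3, a2⟩
      · filter_upwards [k3, k4] with t a2 a3
        exact ⟨fun h' => absurd h' hcl, a3, a2⟩)
  have h7 := EvC.at_R (fun q t => (10 * (n : ℝ) ≤ t ∧ N₁ q * q.σ ≤ t) ∧
    (Aq n / t ≤ 1 / (4 * (Cq q + 3)) ∧ (n : ℝ) ^ 2 * (Aq n / t) ≤ 1) ∧
    (4 * (Aq n / t) ≤ κ₀ ∧ 2 * Cq q * (Aq n / t) ≤ κ₀) ∧
    ((60 * Lq n * (1 + 2000) * (n : ℝ) ^ 2 + 20) * (Aq n / t) ≤ κ₀ / 3 ∧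
    3 * ((n : ℝ) ^ 2 * c) * (Aq n / t) ≤ 1 / (4 * n))) (fun q => by
      have hCq := Cq_pos q
      refine ((eventually_ge_atTop _).and (eventually_ge_atTop _)).and
        ((Filter.Eventually.and ?_ (big _ _ one_pos)).and
        (((big _ _ hκ).and (big _ _ hκ)).and ((big _ _ (by positivity)).and
          (big _ _ (by positivity)))))
      have := big 1 (1 / (4 * (Cq q + 3))) (by positivity)
      filter_upwards [this] with t ht
      rwa [one_mul] at ht)
  refine ((p1.and p2).and ((h3.and h4).and ((h5.and h6).and h7))).mono ?_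
  rintro q ⟨⟨⟨⟨-, a2, -, a4, -, -, -, -, -, -⟩, ⟨-, -, -, -, b5, -, -⟩, -⟩,
    ⟨-, -, -, g1, g2⟩, -⟩, ⟨k1, ⟨⟨c1, c2⟩, c3⟩⟩, ⟨⟨e1, e2⟩, ⟨m1, m2, m3⟩⟩,
    ⟨⟨r1, r2⟩, ⟨r3, r4⟩, ⟨r5, r6⟩, ⟨r7, r8⟩⟩⟩
  exact
    { x1 := g1.Ms1.trans g2
      x2 := b5
      x3 := m1 g1.cl0
      x4 := m2
      x5 := m3
      x6 := r1
      x7 := r2
      x8 := a2
      k0 := a4
      k1 := k1
      c1 := c1
      c2 := c2
      c3 := c3
      e1 := e1
      e2 := e2
      r1 := r3
      r2 := r4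
      r4 := r5
      r5 := r6
      r7 := r7
      r8 := r8 }

/-- **(CW)** the cells of the true weight. -/
theorem rowCW : H205.CP.RowCW := by
  intro n hn κ₀ hκ
  have hn1 : 1 ≤ n := by omega
  have hn' : (1 : ℝ) ≤ n := by exact_mod_cast hn1
  have hL : 0 < Lq n := by unfold Lq; linarith
  refine ⟨C2c n, by unfold C2c; positivity, ?_⟩
  intro c K₀ lam hc hlam
  refine ((H238.C.loc n).and (ev_Tx n hn1 hκ hc K₀)).mono ?_
  rintro q ⟨⟨T, E, LL⟩, X⟩
  have hCq := Cq_pos q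
  have hC3 : 0 < C3 n q := by unfold C3; positivity
  refine ⟨C3 n q, hC3, fun d h => ?_⟩
  have H := hx hn1 h T E X hκ (hlam _ hC3).2 (LL d h)
  have hW : ∀ z ∈ OI q d, d.W q =ᶠ[𝓝 z] W1 (wF d) (prF q.e₁) (d.u q) (gi d.s₁) := fun z hz =>
    H238.C.W_Gz_ev h T E (LL d h z hz).gz
  have key := cel_X H (pd_prF X.x8) (wd_wF h T) hW
  exact
    { k0 := fun z hz => (le_max_right _ _).trans (key.k0 z hz)
      r0 := key.r0
      t0 := key.t0
      np := key.np
      ef := key.ef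
      kf := key.kf
      wq := key.wq
      wp := key.wp }

end Vale.Agent.P088.R2.H960.X
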