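import Vale.Agent.P088.R2.H606.EP.Prf
import Vale.Agent.P088.R2.H205.C.SpecP

/-!
# Zone C, region I: the profile of the weight satisfies `PD` with an absolute constant
-/

open Set Filter
open scoped ContDiff Topology

noncomputable section

namespace Vale.Agent.P088.R2.H960.X

open Vale.Agent.P088.R2.H31.EP Vale.Agent.P088.R2.H644 Vale.Agent.P088.R2.H606.EP

variable {e₁ s : ℝ}

/-- The profile with its derivatives. -/
def prF (e₁ : ℝ) : H205.CP.PF := ⟨prS e₁, prS₁ e₁, prS₂ e₁, prS₃ e₁, deriv (prS₃ e₁)⟩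

theorem prS₃_sm (he : 0 < e₁) : ContDiff ℝ ∞ (prS₃ e₁) :=
  (contDiff_infty_iff_deriv.1 (prS₂_sm he)).2

theorem one_lt_rp : (1 : ℝ) < rp ^ 2 := by norm_num [rp]

theorem prS₂_eq' (he : 0 < e₁) (h1 : s < rp ^ 2) : prS₂ e₁ s = St 2 (4 * s) - St 3 (4 * s) := by
  have h := (pp_ok he).Ph2_eq (s := s) h1
  unfold prS₂
  rw [h]
  unfold Fs2
  norm_num

theorem hd4 (s : ℝ) : HasDerivAt (fun s : ℝ => 4 * s) 4 s := by
  simpa using (hasDerivAt_id s).const_mul 4

theorem St_hd4 (m : ℕ) (s : ℝ) : HasDerivAt (fun s => St m (4 * s)) (4 * dSt m (4 * s)) s := by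
  have h := (hasDerivAt_St m (4 * s)).comp s (hd4 s)
  rw [mul_comm] at h
  exact h

theorem prS₃_eq' (he : 0 < e₁) (h1 : s < rp ^ 2) :
    prS₃ e₁ s = 4 * (dSt 2 (4 * s) - dSt 3 (4 * s)) := by
  have e : prS₂ e₁ =ᶠ[𝓝 s] fun s => St 2 (4 * s) - St 3 (4 * s) := by
    filter_upwards [Iio_mem_nhds h1] with u hu using prS₂_eq' he hu
  unfold prS₃
  rw [e.deriv_eq]
  refine (((St_hd4 2 s).sub (St_hd4 3 s)).congr_deriv ?_).deriv
  ring

theorem prS₃_eq2 (he : 0 < e₁) (h1 : s < rp ^ 2) :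
    prS₃ e₁ s = 2 * St 3 (4 * s) - 6 * St 4 (4 * s) + 6 * St 5 (4 * s) := by
  rw [prS₃_eq' he h1]
  unfold dSt
  push_cast
  ring

theorem prS₄_eq (he : 0 < e₁) (h1 : s < rp ^ 2) :
    deriv (prS₃ e₁) s = 8 * dSt 3 (4 * s) - 24 * dSt 4 (4 * s) + 24 * dSt 5 (4 * s) := by
  have e : prS₃ e₁ =ᶠ[𝓝 s] fun s => 2 * St 3 (4 * s) - 6 * St 4 (4 * s) + 6 * St 5 (4 * s) := by
    filter_upwards [Iio_mem_nhds h1] with u hu using prS₃_eq2 he hu
  rw [e.deriv_eq]
  refine (((((St_hd4 3 s).const_mul 2).sub ((St_hd4 4 s).const_mul 6)).add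
    ((St_hd4 5 s).const_mul 6)).congr_deriv ?_).deriv
  ring

theorem dSt_le {m : ℕ} {x : ℝ} (h0 : 0 ≤ x) (h1 : x ≤ 4) (hm : m ≤ 5) : |dSt m x| ≤ 24 := by
  have a1 := St_le8 (m + 1) h0 h1
  have a2 := St_le8 (m + 2) h0 h1
  have a3 := St_nonneg h0 (m + 1)
  have a4 := St_nonneg h0 (m + 2)
  have hm' : (m : ℝ) ≤ 5 := by exact_mod_cast hm
  have hm0 : (0 : ℝ) ≤ m := Nat.cast_nonneg m
  have h3 : (m : ℝ) * St (m + 2) x ≤ 5 * 8 := mul_le_mul hm' a2 a4 (by norm_num)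
  have h4 : 0 ≤ (m : ℝ) * St (m + 2) x := mul_nonneg hm0 a4
  unfold dSt
  rw [abs_le]
  constructor <;> linarith

/-- **The profile.** -/
theorem pd_prF (he : 0 < e₁) : H205.CP.PD 2000 (prF e₁) where
  sm := prS_sm he
  d1 := prS_d1 he
  d2 := prS_d2 he
  d3 := prS_d3 he
  d4 s := ((prS₃_sm he).differentiable (by simp) s).hasDerivAt
  b0 s h0 h1 := by
    show |prS e₁ s - s / 2| ≤ _
    have x0 : 0 ≤ 4 * s := by linarith
    have x1 : 4 * s ≤ 4 := by linarith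
    have h2 := half_le_St_two x0
    rw [prS_eq he h1]
    have h3 := St_step 2 (4 * s)
    norm_num at h3
    have b4 := St_le8 4 x0 x1
    have e : s * St 2 (4 * s) - s / 2 = 4 * St 4 (4 * s) * s ^ 2 := by
      rw [h3]; ring
    rw [e, abs_of_nonneg (mul_nonneg (mul_nonneg (by norm_num) (St_nonneg x0 4)) (sq_nonneg s))]
    exact mul_le_mul_of_nonneg_right (by linarith) (sq_nonneg s)
  b1 s h0 h1 := by
    show |prS₁ e₁ s - 1 / 2| ≤ _
    have x0 : 0 ≤ 4 * s := by linarith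
    have x1 : 4 * s ≤ 4 := by linarith
    rw [prS₁_eq he h1]
    have h3 := St_step 1 (4 * s)
    norm_num at h3
    have b3 := St_le8 3 x0 x1
    have e : St 1 (4 * s) / 2 - 1 / 2 = 2 * St 3 (4 * s) * s := by
      rw [h3]; ring
    rw [e, abs_of_nonneg (mul_nonneg (mul_nonneg (by norm_num) (St_nonneg x0 3)) h0)]
    exact mul_le_mul_of_nonneg_right (by linarith) h0
  b2 s h0 h1 := by
    have x0 : 0 ≤ 4 * s := by linarith
    have x1 : 4 * s ≤ 4 := by linarith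
    have hs : s < rp ^ 2 := h1.trans_lt one_lt_rp
    have b := fun m => St_le8 m x0 x1
    have p := fun m => St_nonneg x0 m
    have d := fun m (hm : m ≤ 5) => abs_le.1 (dSt_le (m := m) x0 x1 hm)
    refine ⟨?_, ?_, ?_⟩
    · show |prS₂ e₁ s| ≤ _
      rw [prS₂_eq' he hs, abs_le]
      constructor <;> linarith [b 2, b 3, p 2, p 3]
    · show |prS₃ e₁ s| ≤ _
      rw [prS₃_eq' he hs, abs_le]
      constructor <;> linarith [(d 2 (by norm_num)).1, (d 2 (by norm_num)).2,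
        (d 3 (by norm_num)).1, (d 3 (by norm_num)).2]
    · show |deriv (prS₃ e₁) s| ≤ _
      rw [prS₄_eq he hs, abs_le]
      constructor <;> linarith [(d 3 (by norm_num)).1, (d 3 (by norm_num)).2,
        (d 4 (by norm_num)).1, (d 4 (by norm_num)).2, (d 5 (by norm_num)).1,
        (d 5 (by norm_num)).2]
  ps s h0 h1 := by
    show 0 ≤ prS e₁ s ∧ prS e₁ s ≤ s
    have x0 : 0 ≤ 4 * s := by linarith
    rw [prS_eq he h1]
    refine ⟨mul_nonneg h0 (St_nonneg x0 2), ?_⟩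
    have h2 : St 2 (4 * s) ≤ 1 := by
      have h3 := St_mono 2 (show (4 * s) ∈ Ici (0 : ℝ) from by simpa using h0)
        (show (4 : ℝ) ∈ Ici (0 : ℝ) by norm_num) (by linarith)
      have h4 := sq_mul_St_two_sq 2
      have h5 : (2 : ℝ) ^ 2 = 4 := by norm_num
      rw [h5] at h4
      have h6 : Real.cosh 2 ≤ 5 := by
        have h6 := Real.exp_one_lt_d9
        have h7 : Real.exp 2 = Real.exp 1 ^ 2 := by rw [← Real.exp_nat_mul]; norm_num
        have h8 : Real.exp (-2) ≤ 1 := Real.exp_le_one_iff.2 (by norm_num)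
        have h9 : Real.exp 2 ≤ 7.5 := by
          rw [h7]
          have h0 := Real.exp_pos 1
          nlinarith
        rw [Real.cosh_eq]
        linarith
      linarith
    have := mul_le_mul_of_nonneg_left h2 h0
    linarith

end Vale.Agent.P088.R2.H960.X
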