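import Vale.Agent.P088.R2.H960.C.CelW
import Vale.Agent.P088.R2.H960.X.Nm
import Vale.Agent.P088.R2.H205.C.SpecR

/-!
# Zone C, region I: the cells of the curved weight for a general level `u`

`W = φ(u) + G(u) S(r²)` with `∂_q u = a`, `∂_p u = b`; the structure `Cel'`. Both passes: `N / R` need
not be small.
-/

open Set MeasureTheory Filter
open scoped ContDiff Matrix Topology

noncomputable section

namespace Vale.Agent.P088.R2.H960.X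

open Vale.Agent.P088.LR Vale.Agent.P088.HY Vale.Agent.P088.R2.H644 Vale.Agent.P088.R2
open Vale.Agent.P088.R2.H960.C (Bd Lg Pr nq dQ dP nq_nn dQ_nn dP_nn dQ_le nx ny nm qi_le dqi_le Gq hi
  hv_comp hv_r2 dif_va mid_va dif_vb mid_vb bf_zero bf_dg0 bf_single fd_va fd_vb va vb lev mv nq_sq
  vq_norm vq r2_nonneg)
open Vale.Agent.P088.R2.H464.Cu (mid dif bf rq dg Hv)

variable {n : ℕ}

/-- The weight. -/
def W1 (w : H205.CP.WF) (pf : H205.CP.PF) (u : VV n → ℝ) (g : MF n) (z : VV n) : ℝ :=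
  w.φ (u z) + w.G (u z) * pf.Φ (H31.EP.r2 g z)

section

variable {Cs Cd : ℝ} {w : H205.CP.WF} {pf : H205.CP.PF} {I : Set ℝ} {u : VV n → ℝ} {g : MF n}

theorem hv_W1 (hp : H205.CP.PD Cs pf) (hw : H205.CP.WD 1 Cd w I)
    (sg : ∀ i j, ContDiff ℝ ∞ fun x => g x i j) (sy : ∀ x i j, g x i j = g x j i) {v z : VV n}
    {a : ℝ} (hu : Hv v u a z) :
    Hv v (W1 w pf u g) (w.φ₁ (u z) * a +
      (w.G₁ (u z) * a * pf.Φ (H31.EP.r2 g z) +
        w.G (u z) * (pf.Φ₁ (H31.EP.r2 g z) * (2 * (bf (g (mid z)) (dif v) (dif z) +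
          1 / 2 * bf (dg (mid v) g (mid z)) (dif z) (dif z)))))) z :=
  (hv_comp (hw.d1 _) hu).add ((hv_comp (hw.e1 _) hu).mul (hv_comp (hp.d1 _) (hv_r2 sg sy v z)))

theorem dq_W1 (hp : H205.CP.PD Cs pf) (hw : H205.CP.WD 1 Cd w I)
    (sg : ∀ i j, ContDiff ℝ ∞ fun x => g x i j) (sy : ∀ x i j, g x i j = g x j i) {i : Fin n}
    {z : VV n} {a : ℝ} (hu : Hv (va i) u a z) : H205.CP.dq i (W1 w pf u g) z
      = w.φ₁ (u z) * a + w.G₁ (u z) * pf.Φ (H31.EP.r2 g z) * a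
        + w.G (u z) * (2 * (pf.Φ₁ (H31.EP.r2 g z) * Gq g i z)) := by
  have h : H205.CP.dq i (W1 w pf u g) z = fderiv ℝ (W1 w pf u g) z (va i) := (fd_va _ i z).symm
  rw [h, (hv_W1 hp hw sg sy hu).e, dif_va, mid_va, bf_dg0, bf_single]
  have e2 : ∑ j, g (mid z) i j * dif z j = Gq g i z := rfl
  rw [e2]
  ring

theorem dp_W1 (hp : H205.CP.PD Cs pf) (hw : H205.CP.WD 1 Cd w I)
    (sg : ∀ i j, ContDiff ℝ ∞ fun x => g x i j) (sy : ∀ x i j, g x i j = g x j i) {i : Fin n}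
    {z : VV n} {b : ℝ} (hu : Hv (vb i) u b z) : H205.CP.dp i (W1 w pf u g) z
      = (w.φ₁ (u z) + w.G₁ (u z) * pf.Φ (H31.EP.r2 g z)) * b
        + w.G (u z) * (pf.Φ₁ (H31.EP.r2 g z) * hi g i z) := by
  have h : H205.CP.dp i (W1 w pf u g) z = fderiv ℝ (W1 w pf u g) z (vb i) := (fd_vb _ i z).symm
  rw [h, (hv_W1 hp hw sg sy hu).e, dif_vb, mid_vb, bf_zero]
  unfold hi
  ring

end

/-- The pointwise hypotheses. -/
structure Hx (n : ℕ) (κ₀ Cs Cd L H C₂ C₃ ε e c₁ c₀ c K₀ lam ν₀ : ℝ) (w : H205.CP.WF) (I : Set ℝ)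
    (u : VV n → ℝ) (a b : Fin n → VV n → ℝ) (g : MF n) (O : Set (VV n)) : Prop where
  sg : ∀ i j, ContDiff ℝ ∞ fun x => g x i j
  sy : ∀ x i j, g x i j = g x j i
  oc : I.OrdConnected
  bd : ∀ z ∈ O, ∀ x, ‖x - z.1‖ ≤ 1 → Bd 1 ε e (fun _ => 0) g x
  ua : ∀ z ∈ O, ∀ i, Hv (va i) u (a i z) z
  ub : ∀ z ∈ O, ∀ i, Hv (vb i) u (b i z) z
  uI : ∀ z ∈ O, u z ∈ I
  kO : ∀ z ∈ O, K₀ ≤ w.φ₂ (u z)
  kE : ∀ z ∈ O, w.φ₂ (u z) ≤ w.G (u z)
  nE : ∀ z ∈ O, w.φ₁ (u z) ≤ w.G (u z)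
  kn : ∀ z ∈ O, w.φ₂ (u z) ≤ 3 * w.φ₁ (u z)
  q0 : ∀ z ∈ O, qq z ≤ c₀ ^ 2
  q1 : ∀ z ∈ O, qq z ≤ c₁ ^ 2
  t0 : ∀ z ∈ O, w.G (u z) * qq z ≤ c * w.φ₂ (u z)
  du : ∀ z ∈ O, ∀ z' ∈ O, dP z z' ≤ lam →
    |u z - u z'| ≤ L * dP z z' + e * (nq z + nq z') * dQ z z'
  a0 : ∀ z ∈ O, ∀ i, |a i z| ≤ e * nq z
  aa : ∀ z ∈ O, ∀ z' ∈ O, dP z z' ≤ lam → ∀ i, |a i z - a i z'| ≤ e * dQ z z'
  b0 : ∀ z ∈ O, ∀ i, |b i z| ≤ 2 * L
  b1 : ∀ z ∈ O, ∀ z' ∈ O, dP z z' ≤ lam → ∀ i, |b i z - b i z'| ≤ dP z z'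
  b2 : ∀ z ∈ O, ∀ z' ∈ O, dP z z' ≤ lam → ∀ i,
    w.φ₁ (u z') * |b i z - b i z'| ≤ H * (w.φ₂ (u z) * dP z z')
  bb : ∀ z ∈ O, ∃ i, ν₀ ≤ |b i z|
  -- the constants
  hn : 1 ≤ n
  hC : 0 ≤ Cs
  hCd : 0 < Cd
  hL : 1 ≤ L
  hH : 0 ≤ H
  hε : 0 ≤ ε
  he : 0 ≤ e
  hc1 : 0 ≤ c₁
  hc1' : c₁ ≤ 1 / 4
  hc2 : 2 * (n : ℝ) ^ 2 * c₁ ^ 2 ≤ 1
  hc3 : 2 * (n : ℝ) ^ 2 * c₁ ^ 2 * Cs ≤ 1 / 2
  hlam : lam ≤ 1
  hlam2 : L * lam ≤ 1 / (4 * (Cd + 3))
  he1 : e ≤ 1 / (4 * (Cd + 3))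
  he2 : (n : ℝ) ^ 2 * e ≤ 1
  he3 : (n : ℝ) ^ 2 * ε ≤ 1
  he4 : 4 * e ≤ κ₀
  he5 : 2 * Cd * e ≤ κ₀
  he7 : (60 * L * (1 + Cs) * (n : ℝ) ^ 2) * e + 20 * e + 4 * (n * ε)
    + 160 * Cs * (n : ℝ) ^ 2 * c₁ ^ 2 ≤ κ₀
  he8 : 3 * ((n : ℝ) ^ 2 * e * c) < ν₀
  K1 : 1 ≤ K₀
  hC2 : (100 + H) * (L ^ 2 * (1 + Cs) * (n : ℝ) ^ 2) ≤ C₂
  hC3 : 2 * Cd * L ≤ C₃
  κ0 : 0 ≤ κ₀

variable {κ₀ Cs Cd L H C₂ C₃ ε e c₁ c₀ c K₀ lam ν₀ : ℝ} {w : H205.CP.WF} {pf : H205.CP.PF}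
  {I : Set ℝ} {u : VV n → ℝ} {a b : Fin n → VV n → ℝ} {g : MF n} {O : Set (VV n)}

theorem Hx.nq_le (h : Hx n κ₀ Cs Cd L H C₂ C₃ ε e c₁ c₀ c K₀ lam ν₀ w I u a b g O) {z : VV n}
    (hz : z ∈ O) : nq z ≤ c₁ := by
  refine (vq_norm z).trans ?_
  rw [Real.sqrt_le_left h.hc1]
  exact h.q1 z hz

theorem Hx.lg (h : Hx n κ₀ Cs Cd L H C₂ C₃ ε e c₁ c₀ c K₀ lam ν₀ w I u a b g O) {z : VV n}
    (hz : z ∈ O) : Lg 1 ε e (fun _ => 0) g (Metric.closedBall z.1 1) where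
  sl := contDiff_const
  sg := h.sg
  sy := h.sy
  cv := convex_closedBall _ _
  bd x hx := h.bd z hz x (by rwa [Metric.mem_closedBall, dist_eq_norm] at hx)

theorem Hx.pr (h : Hx n κ₀ Cs Cd L H C₂ C₃ ε e c₁ c₀ c K₀ lam ν₀ w I u a b g O) {z z' : VV n}
    (hz : z ∈ O) (hz' : z' ∈ O) (hd : dP z z' ≤ lam) : Pr (Metric.closedBall z.1 1) z z' := by
  have h1 := h.nq_le hz
  have h2 := h.nq_le hz'
  have h3 := dQ_le z z'
  have h4 := nx z z'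
  have h5 := h.hc1'
  have h6 := h.hlam
  have hx : ‖z'.1 - z.1‖ ≤ 3 / 4 := by rw [norm_sub_rev]; linarith
  refine ⟨by simp, ?_, ?_, ?_⟩
  · rw [Metric.mem_closedBall, dist_eq_norm, norm_sub_rev]
    have : ‖z.1 - z.2‖ = nq z := rfl
    linarith
  · rw [Metric.mem_closedBall, dist_eq_norm]; linarith
  · rw [Metric.mem_closedBall, dist_eq_norm]
    have e : z'.2 - z.1 = (z'.2 - z'.1) + (z'.1 - z.1) := by abel
    rw [e]
    have h7 := norm_add_le (z'.2 - z'.1) (z'.1 - z.1)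
    have h8 : ‖z'.2 - z'.1‖ = nq z' := norm_sub_rev _ _
    linarith

/-- The difference of the levels. -/
theorem Hx.du' (h : Hx n κ₀ Cs Cd L H C₂ C₃ ε e c₁ c₀ c K₀ lam ν₀ w I u a b g O) {z z' : VV n}
    (hz : z ∈ O) (hz' : z' ∈ O) (hd : dP z z' ≤ lam) :
    |u z - u z'| ≤ L * dP z z' + e * (nq z + nq z') * dQ z z' ∧
      |u z - u z'| ≤ 1 / (2 * (Cd + 3)) := by
  have h1 := h.du z hz z' hz' hd
  refine ⟨h1, h1.trans ?_⟩
  have h2 : L * dP z z' ≤ L * lam := mul_le_mul_of_nonneg_left hd (by linarith [h.hL])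
  have a1 := h.nq_le hz
  have a2 := h.nq_le hz'
  have a3 := dQ_le z z'
  have a4 := h.hc1'
  have a5 := nq_nn z
  have a6 := nq_nn z'
  have a7 := dQ_nn z z'
  have h3 : e * (nq z + nq z') * dQ z z' ≤ e * 1 * 1 := by
    have := h.he
    gcongr <;> linarith
  have h4 : 1 / (2 * (Cd + 3)) = 1 / (4 * (Cd + 3)) + 1 / (4 * (Cd + 3)) := by
    have := h.hCd
    field_simp; norm_num
  rw [h4]
  linarith [h.hlam2, h.he1]

theorem Hx.r2b (h : Hx n κ₀ Cs Cd L H C₂ C₃ ε e c₁ c₀ c K₀ lam ν₀ w I u a b g O) {z : VV n}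
    (hz : z ∈ O) {B : Set (V n)} (lg : Lg 1 ε e (fun _ => 0) g B) (hx : z.1 ∈ B)
    (hy : z.2 ∈ B) :
    0 ≤ H31.EP.r2 g z ∧ H31.EP.r2 g z ≤ 2 * (n : ℝ) ^ 2 * nq z ^ 2 ∧ H31.EP.r2 g z ≤ 1 ∧
      Cs * H31.EP.r2 g z ≤ 1 / 2 := by
  have hn : (1 : ℝ) ≤ n := by exact_mod_cast h.hn
  have hε1 : ε ≤ 1 := by
    have h1 : (n : ℝ) ^ 2 * ε ≤ 1 := h.he3
    have h2 : 1 * ε ≤ (n : ℝ) ^ 2 * ε := mul_le_mul_of_nonneg_right (by nlinarith) h.hε
    linarith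
  have h1 := lg.r2_le hε1 hx hy
  have h2 := lg.r2_ge hx hy
  have h3 := nq_sq z
  have h4 : (n : ℝ) * (n * (ε * nq z ^ 2)) ≤ qq z := by
    calc (n : ℝ) * (n * (ε * nq z ^ 2)) = ((n : ℝ) ^ 2 * ε) * nq z ^ 2 := by ring
      _ ≤ 1 * nq z ^ 2 := mul_le_mul_of_nonneg_right h.he3 (sq_nonneg _)
      _ ≤ qq z := by linarith
  have h5 : 0 ≤ H31.EP.r2 g z := by linarith [(abs_le.1 h2).1]
  have h6 : H31.EP.r2 g z ≤ 2 * (n : ℝ) ^ 2 * nq z ^ 2 := by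
    have := (abs_le.1 h1).2
    linarith
  have h7 : nq z ^ 2 ≤ c₁ ^ 2 := pow_le_pow_left₀ (nq_nn z) (h.nq_le hz) 2
  have h8 : 2 * (n : ℝ) ^ 2 * nq z ^ 2 ≤ 2 * (n : ℝ) ^ 2 * c₁ ^ 2 :=
    mul_le_mul_of_nonneg_left h7 (by positivity)
  refine ⟨h5, h6, by linarith [h.hc2], ?_⟩
  have h9 := mul_le_mul_of_nonneg_left (h6.trans h8) h.hC
  linarith [h.hc3]

theorem Hx.nm (h : Hx n κ₀ Cs Cd L H C₂ C₃ ε e c₁ c₀ c K₀ lam ν₀ w I u a b g O)
    (hp : H205.CP.PD Cs pf) (hw : H205.CP.WD 1 Cd w I) {z z' : VV n} (hz : z ∈ O)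
    (hz' : z' ∈ O) (hd : dP z z' ≤ lam) :
    Nm ((n : ℝ) ^ 2) L Cs ε e (w.G (u z)) (w.G₁ (u z)) (w.φ₁ (u z)) (w.φ₂ (u z))
      (pf.Φ (H31.EP.r2 g z)) (pf.Φ₁ (H31.EP.r2 g z)) (nq z) (nq z + nq z') (dQ z z') (dP z z')
      (w.G (u z')) (w.G₁ (u z')) (w.φ₁ (u z'))
      (pf.Φ (H31.EP.r2 g z')) (pf.Φ₁ (H31.EP.r2 g z')) (nq z') |u z - u z'| := by
  have hn : (1 : ℝ) ≤ n := by exact_mod_cast h.hn
  have hε1 : ε ≤ 1 := by
    have h1 : (n : ℝ) ^ 2 * ε ≤ 1 := h.he3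
    have h2 : 1 * ε ≤ (n : ℝ) ^ 2 * ε := mul_le_mul_of_nonneg_right (by nlinarith) h.hε
    linarith
  obtain ⟨d1, d2⟩ := h.du' hz hz' hd
  obtain ⟨l1, l2, l3, l4, -⟩ := lev h.oc h.hCd hw (h.uI z hz) (h.uI z' hz') d2
  have p := h.pr hz hz' hd
  have lg := h.lg hz
  obtain ⟨s1, s2, s3, s4⟩ := h.r2b hz lg p.x p.y
  obtain ⟨s1', s2', s3', s4'⟩ := h.r2b hz' lg p.x' p.y'
  have a1 := h.nq_le hz
  have a2 := h.nq_le hz'
  have a4 := h.hc1'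
  have rs := lg.r2_sub hε1 p h.he
  have rs' : |H31.EP.r2 g z - H31.EP.r2 g z'| ≤ (n : ℝ) ^ 2 * (2 * ((nq z + nq z') * dQ z z')
      + e * dP z z' * (nq z + nq z') ^ 2) := by
    refine rs.trans ?_
    have h1 : nq z' ^ 2 ≤ (nq z + nq z') ^ 2 :=
      pow_le_pow_left₀ (nq_nn _) (by linarith [nq_nn z]) 2
    have h2 : e * dP z z' * nq z' ^ 2 ≤ e * dP z z' * (nq z + nq z') ^ 2 :=
      mul_le_mul_of_nonneg_left h1 (mul_nonneg h.he (dP_nn _ _))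
    calc (n : ℝ) * (n * (2 * ((nq z + nq z') * dQ z z') + e * dP z z' * nq z' ^ 2))
        = (n : ℝ) ^ 2 * (2 * ((nq z + nq z') * dQ z z') + e * dP z z' * nq z' ^ 2) := by ring
      _ ≤ _ := mul_le_mul_of_nonneg_left (by linarith) (by positivity)
  have T1 : ∀ s, 0 ≤ s → s ≤ 1 → Cs * s ≤ 1 / 2 → |pf.Φ₁ s| ≤ 1 := fun s h0 h1 h2 => by
    have h3 := abs_le.1 (hp.b1 s h0 h1)
    rw [abs_le]; constructor <;> linarith [h3.1, h3.2]
  exact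
    { M1 := by nlinarith
      L1 := h.hL
      C1 := h.hC
      e0 := h.hε
      f0 := h.he
      f1 := h.he2
      E0 := hw.gp _ (h.uI z hz)
      K1 := h.K1.trans (h.kO z hz)
      KE := h.kE z hz
      q0 := nq_nn _
      q0' := nq_nn _
      qQ := by linarith [nq_nn z']
      qQ' := by linarith [nq_nn z]
      Q1 := by linarith
      d0 := dQ_nn _ _
      dQ := dQ_le _ _
      p0 := dP_nn _ _
      t0 := abs_nonneg _
      tt := d1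
      EE := l2
      DD := l3
      NN := l4
      E2 := l1
      E0' := hw.gp _ (h.uI z' hz')
      D2' := by
        have h1 := abs_le.1 (hw.g1 _ (h.uI z' hz'))
        have h2 := hw.gp _ (h.uI z' hz')
        rw [abs_le]; constructor <;> linarith [h1.1, h1.2]
      S1 := by
        have h1 := hp.ps _ s1 s3
        rw [abs_of_nonneg h1.1]; linarith [h1.2]
      S1' := by
        have h1 := hp.ps _ s1' s3'
        rw [abs_of_nonneg h1.1]; linarith [h1.2]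
      SS := by
        refine (mv (I := Icc 0 1) hp.d1 ordConnected_Icc (M := 1 + Cs) (fun s hs => ?_)
          ⟨s1, s3⟩ ⟨s1', s3'⟩).trans
          (mul_le_mul_of_nonneg_left rs' (by linarith [h.hC]))
        have h3 := abs_le.1 (hp.b1 s hs.1 hs.2)
        have h4 : Cs * s ≤ Cs := mul_le_of_le_one_right h.hC hs.2
        rw [abs_le]; constructor <;> linarith [h3.1, h3.2, h.hC]
      T0 := by
        have h1 := hp.b1 _ s1 s3
        have e : 2 * pf.Φ₁ (H31.EP.r2 g z) - 1 = 2 * (pf.Φ₁ (H31.EP.r2 g z) - 1 / 2) := by ring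
        rw [e, abs_mul, abs_two]
        have h2 := mul_le_mul_of_nonneg_left s2 h.hC
        linarith
      T1 := T1 _ s1 s3 s4
      T1' := T1 _ s1' s3' s4'
      TT := by
        exact (mv (I := Icc 0 1) hp.d2 ordConnected_Icc (M := Cs)
          (fun s hs => (hp.b2 s hs.1 hs.2).1)
          ⟨s1, s3⟩ ⟨s1', s3'⟩).trans (mul_le_mul_of_nonneg_left rs' h.hC)
      NE' := h.nE z' hz'
      N0' := (hw.np _ (h.uI z' hz')).le }

/-- **The cells of the curved weight.** -/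
theorem cel_X (h : Hx n κ₀ Cs Cd L H C₂ C₃ ε e c₁ c₀ c K₀ lam ν₀ w I u a b g O)
    (hp : H205.CP.PD Cs pf) (hw : H205.CP.WD 1 Cd w I) {W : VV n → ℝ}
    (hW : ∀ z ∈ O, W =ᶠ[𝓝 z] W1 w pf u g) :
    H205.CP.Cel' κ₀ C₂ C₃ c₀ c K₀ lam W (fun z => w.G (u z)) (fun z => w.φ₂ (u z)) O := by
  have hn : (1 : ℝ) ≤ n := by exact_mod_cast h.hn
  have hn2 : (n : ℝ) ≤ (n : ℝ) ^ 2 := by nlinarith
  have eq : ∀ z ∈ O, ∀ i, H205.CP.dq i W z = H205.CP.dq i (W1 w pf u g) z := fun z hz i => by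
    unfold H205.CP.dq dx dy
    rw [(hW z hz).fderiv_eq]
  have ep : ∀ z ∈ O, ∀ i, H205.CP.dp i W z = H205.CP.dp i (W1 w pf u g) z := fun z hz i => by
    unfold H205.CP.dp dx dy
    rw [(hW z hz).fderiv_eq]
  have hL := h.hL
  have hC := h.hC
  have hCd := h.hCd
  have hH := h.hH
  obtain ⟨c1, c2, c3, c4, c5, c6, c7, c8⟩ := consts (M := (n : ℝ) ^ 2) hL hC (by nlinarith)
  have Z0 : 0 ≤ L ^ 2 * (1 + Cs) * (n : ℝ) ^ 2 := by positivity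
  have hC2 : 100 * (L ^ 2 * (1 + Cs) * (n : ℝ) ^ 2) ≤ C₂ := by
    have := mul_nonneg hH Z0
    linarith [h.hC2]
  have C0 : 0 ≤ C₂ := by linarith
  refine
    { k0 := h.kO
      r0 := h.q0
      t0 := h.t0
      np := ?_
      ef := ?_
      kf := ?_
      wq := ?_
      wp := ?_ }
  · intro z hz
    obtain ⟨i, hi'⟩ := h.bb z hz
    refine ⟨i, ?_⟩
    rw [ep z hz, dp_W1 hp hw h.sg h.sy (h.ub z hz i)]
    have lg := h.lg hz
    have hx : z.1 ∈ Metric.closedBall z.1 (1 : ℝ) := by simp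
    have hy : z.2 ∈ Metric.closedBall z.1 (1 : ℝ) := by
      rw [Metric.mem_closedBall, dist_eq_norm, norm_sub_rev]
      have : ‖z.1 - z.2‖ = nq z := rfl
      linarith [h.nq_le hz, h.hc1']
    obtain ⟨s1, s2, s3, s4⟩ := h.r2b hz lg hx hy
    have hG := hw.gp _ (h.uI z hz)
    have hN := hw.np _ (h.uI z hz)
    have hG1 : 0 ≤ w.G₁ (u z) := by
      have h1 := abs_le.1 (hw.g1 _ (h.uI z hz))
      linarith [h1.1]
    have hS := (hp.ps _ s1 s3).1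
    have hT : |pf.Φ₁ (H31.EP.r2 g z)| ≤ 1 := by
      have h3 := abs_le.1 (hp.b1 _ s1 s3)
      rw [abs_le]; constructor <;> linarith [h3.1, h3.2]
    have h1 := lg.hi_le hx hy i
    have h3 := nq_sq z
    have h4 : |w.G (u z) * (pf.Φ₁ (H31.EP.r2 g z) * hi g i z)|
        ≤ (n : ℝ) ^ 2 * e * c * (3 * w.φ₁ (u z)) := by
      rw [abs_mul, abs_of_pos hG]
      have h5 := abs_mul_le hT h1
      have h6 : w.G (u z) * (1 * (n * (n * (e * nq z ^ 2))))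
          ≤ (n : ℝ) ^ 2 * e * (c * w.φ₂ (u z)) := by
        have h7 := h.t0 z hz
        have h8 : w.G (u z) * nq z ^ 2 ≤ w.G (u z) * qq z :=
          mul_le_mul_of_nonneg_left h3 hG.le
        have h9 := mul_le_mul_of_nonneg_left (h8.trans h7)
          (by have := h.he; positivity : 0 ≤ (n : ℝ) ^ 2 * e)
        calc _ = (n : ℝ) ^ 2 * e * (w.G (u z) * nq z ^ 2) := by ring
          _ ≤ _ := h9
      have hc0 : 0 ≤ c := by
        by_contra hc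
        push Not at hc
        have h7 := h.t0 z hz
        have h8 : 0 ≤ w.G (u z) * qq z :=
          mul_nonneg hG.le (r2_nonneg (lq := vq) z)
        have h9 : c * w.φ₂ (u z) < 0 := mul_neg_of_neg_of_pos hc (hw.kp _ (h.uI z hz))
        linarith
      have h10 : (n : ℝ) ^ 2 * e * (c * w.φ₂ (u z))
          ≤ (n : ℝ) ^ 2 * e * (c * (3 * w.φ₁ (u z))) := by
        have := h.kn z hz
        have := h.he
        gcongr
      calc _ ≤ w.G (u z) * (1 * (n * (n * (e * nq z ^ 2)))) :=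
            mul_le_mul_of_nonneg_left h5 hG.le
        _ ≤ _ := h6
        _ ≤ _ := h10
        _ = _ := by ring
    intro h0
    have h5 : |(w.φ₁ (u z) + w.G₁ (u z) * pf.Φ (H31.EP.r2 g z)) * b i z|
        = |w.G (u z) * (pf.Φ₁ (H31.EP.r2 g z) * hi g i z)| := by
      rw [← abs_neg (w.G (u z) * (pf.Φ₁ (H31.EP.r2 g z) * hi g i z))]
      congr 1
      linarith
    rw [abs_mul, abs_of_pos (by positivity :
      0 < w.φ₁ (u z) + w.G₁ (u z) * pf.Φ (H31.EP.r2 g z))] at h5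
    have h6 : w.φ₁ (u z) * ν₀
        ≤ (w.φ₁ (u z) + w.G₁ (u z) * pf.Φ (H31.EP.r2 g z)) * |b i z| := by
      have h7 : 0 ≤ w.G₁ (u z) * pf.Φ (H31.EP.r2 g z) := mul_nonneg hG1 hS
      have h8 := mul_le_mul_of_nonneg_left hi' hN.le
      have h9 := mul_nonneg h7 (abs_nonneg (b i z))
      linarith
    have h7 := mul_lt_mul_of_pos_left h.he8 hN
    linarith
  · intro z hz z' hz' hd
    obtain ⟨d1, d2⟩ := h.du' hz hz' hd
    obtain ⟨l1, l2, l3, l4, l5⟩ := lev h.oc h.hCd hw (h.uI z hz) (h.uI z' hz') d2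
    have hG := hw.gp _ (h.uI z hz)
    have nm := h.nm hp hw hz hz' hd
    have e1 : e * (nq z + nq z') * dQ z z' ≤ e * 1 * 1 := by
      have := nm.f0
      have := nm.Q1
      have := nm.d0
      have := nm.dQ
      gcongr
      linarith
    have h1 : |u z - u z'| ≤ L * dP z z' + e := by linarith
    have h2 := mul_le_mul_of_nonneg_left h1 (by positivity : 0 ≤ 4 * w.G (u z))
    have h3 : 4 * L ≤ C₂ := by linarith
    have h4 : 4 * L * dP z z' + 4 * e ≤ C₂ * dP z z' + κ₀ :=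
      add_le_add (mul_le_mul_of_nonneg_right h3 (dP_nn _ _)) h.he4
    have h5 := mul_le_mul_of_nonneg_left h4 hG.le
    show |w.G (u z) - w.G (u z')| ≤ w.G (u z) * (C₂ * dP z z' + κ₀)
    linarith
  · intro z hz z' hz' hd
    obtain ⟨d1, d2⟩ := h.du' hz hz' hd
    obtain ⟨l1, l2, l3, l4, l5⟩ := lev h.oc h.hCd hw (h.uI z hz) (h.uI z' hz') d2
    have hK := hw.kp _ (h.uI z hz)
    have nm := h.nm hp hw hz hz' hd
    have e1 : e * (nq z + nq z') * dQ z z' ≤ e * 1 * 1 := by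
      have := nm.f0
      have := nm.Q1
      have := nm.d0
      have := nm.dQ
      gcongr
      linarith
    have h1 : |u z - u z'| ≤ L * dP z z' + e := by linarith
    have h2 := mul_le_mul_of_nonneg_left h1 (by positivity : 0 ≤ 2 * Cd * w.φ₂ (u z))
    have h4 : 2 * Cd * L * dP z z' + 2 * Cd * e ≤ C₃ * dP z z' + κ₀ :=
      add_le_add (mul_le_mul_of_nonneg_right h.hC3 (dP_nn _ _)) h.he5
    have h5 := mul_le_mul_of_nonneg_left h4 hK.le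
    show |w.φ₂ (u z) - w.φ₂ (u z')| ≤ w.φ₂ (u z) * (C₃ * dP z z' + κ₀)
    linarith
  · intro z hz z' hz' hd i
    have nm := h.nm hp hw hz hz' hd
    have p := h.pr hz hz' hd
    have lg := h.lg hz
    have ab := nm.ab
    rw [eq z hz, eq z' hz', dq_W1 hp hw h.sg h.sy (h.ua z hz i),
      dq_W1 hp hw h.sg h.sy (h.ua z' hz' i)]
    have haa := h.aa z hz z' hz' hd i
    have haa' : |a i z - a i z'| ≤ e * (dP z z' + dQ z z') := by
      have := mul_nonneg h.he (dP_nn z z')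
      linarith
    have b1 := nm.k1 (h.a0 z hz i) haa
    have b2 := nm.k2 (h.a0 z hz i) haa'
    have hδ0 : 0 ≤ n * ε := by have := h.hε; positivity
    have hδ1 : n * ε ≤ 1 := le_trans (mul_le_mul_of_nonneg_right hn2 h.hε) h.he3
    have b3 := nm.k3 (c := H205.CP.vq z i) (c' := H205.CP.vq z' i) (g := Gq g i z)
      (g' := Gq g i z') hδ0 hδ1 (qi_le z i) (qi_le z' i) (dqi_le z z' i)
      ((lg.Gq_le p.x p.y i).trans (le_of_eq (by ring)))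
      ((lg.Gq_le p.x' p.y' i).trans (le_of_eq (by ring)))
      ((lg.Gq_sub p h.he i).trans (by
        have h1 : nq z' ≤ nq z + nq z' := nm.qQ'
        have h2 : e * dP z z' * nq z' ≤ e * dP z z' * (nq z + nq z') :=
          mul_le_mul_of_nonneg_left h1 (mul_nonneg h.he (dP_nn _ _))
        have h3 : (n : ℝ) * (e * dP z z' * (nq z + nq z'))
            ≤ (n : ℝ) ^ 2 * (e * dP z z' * (nq z + nq z')) := by
          apply mul_le_mul_of_nonneg_right hn2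
          have := h.he
          have := dP_nn z z'
          have := ab.Q0
          positivity
        have h4 := mul_le_mul_of_nonneg_left h2 (by positivity : 0 ≤ (n : ℝ))
        linarith))
    have e0 : (w.φ₁ (u z) * a i z + w.G₁ (u z) * pf.Φ (H31.EP.r2 g z) * a i z
        + w.G (u z) * (2 * (pf.Φ₁ (H31.EP.r2 g z) * Gq g i z)))
        - (w.φ₁ (u z') * a i z' + w.G₁ (u z') * pf.Φ (H31.EP.r2 g z') * a i z'
        + w.G (u z') * (2 * (pf.Φ₁ (H31.EP.r2 g z') * Gq g i z')))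
        - w.G (u z') * (H205.CP.vq z i - H205.CP.vq z' i)
        = (w.φ₁ (u z) * a i z - w.φ₁ (u z') * a i z')
        + (w.G₁ (u z) * pf.Φ (H31.EP.r2 g z) * a i z
          - w.G₁ (u z') * pf.Φ (H31.EP.r2 g z') * a i z')
        + ((w.G (u z) * (2 * (pf.Φ₁ (H31.EP.r2 g z) * Gq g i z))
          - w.G (u z') * (2 * (pf.Φ₁ (H31.EP.r2 g z') * Gq g i z')))
          - w.G (u z') * (H205.CP.vq z i - H205.CP.vq z' i)) := by ring
    rw [e0]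
    refine (abs_tri b1 b2 b3).trans ?_
    show _ ≤ κ₀ * w.G (u z) * dQ z z' + C₂ * w.G (u z) * (nq z + nq z')
      * dP z z' + κ₀ * Real.sqrt (w.G (u z))
    have hG := (hw.gp _ (h.uI z hz)).le
    have sG : 0 ≤ Real.sqrt (w.G (u z)) := Real.sqrt_nonneg _
    have X0 : 0 ≤ w.G (u z) * dQ z z' := mul_nonneg hG (dQ_nn _ _)
    have Y0 : 0 ≤ w.G (u z) * ((nq z + nq z') * dP z z') :=
      mul_nonneg hG (mul_nonneg ab.Q0 (dP_nn _ _))
    have j1 : 0 ≤ κ₀ * Real.sqrt (w.G (u z)) := mul_nonneg h.κ0 sG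
    have hQ2 : (nq z + nq z') ^ 2 ≤ 4 * c₁ ^ 2 := by
      have h1 : nq z + nq z' ≤ 2 * c₁ := by linarith [h.nq_le hz, h.nq_le hz']
      have h2 := pow_le_pow_left₀ ab.Q0 h1 2
      linarith
    have j2 : 4 * e + (60 * L * (1 + Cs) * (n : ℝ) ^ 2) * e + (16 * e + 4 * (n * ε)
        + 40 * Cs * (n : ℝ) ^ 2 * (nq z + nq z') ^ 2) ≤ κ₀ := by
      have h1 : 40 * Cs * (n : ℝ) ^ 2 * (nq z + nq z') ^ 2
          ≤ 40 * Cs * (n : ℝ) ^ 2 * (4 * c₁ ^ 2) :=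
        mul_le_mul_of_nonneg_left hQ2 (by positivity)
      linarith [h.he7]
    have j3 : 2 * L + (60 * L * (1 + Cs) * (n : ℝ) ^ 2) * e
        + (16 * L + 40 * (1 + Cs) * (n : ℝ) ^ 2) ≤ C₂ := by
      have h0 : e ≤ 1 / 12 := by
        refine h.he1.trans ?_
        apply one_div_le_one_div_of_le (by norm_num)
        linarith
      have h1 : (60 * L * (1 + Cs) * (n : ℝ) ^ 2) * e
          ≤ (60 * L * (1 + Cs) * (n : ℝ) ^ 2) * (1 / 12) :=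
        mul_le_mul_of_nonneg_left h0 (by positivity)
      have h2 : (1 + Cs) * (n : ℝ) ^ 2 ≤ L ^ 2 * (1 + Cs) * (n : ℝ) ^ 2 := by
        have : 1 * (1 + Cs) * (n : ℝ) ^ 2 ≤ L ^ 2 * (1 + Cs) * (n : ℝ) ^ 2 := by
          gcongr
          nlinarith
        linarith
      linarith
    have m2 := mul_le_mul_of_nonneg_right j2 X0
    have m3 := mul_le_mul_of_nonneg_right j3 Y0
    linarith
  · intro z hz z' hz' hd i
    have nm := h.nm hp hw hz hz' hd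
    have p := h.pr hz hz' hd
    have lg := h.lg hz
    rw [ep z hz, ep z' hz', dp_W1 hp hw h.sg h.sy (h.ub z hz i),
      dp_W1 hp hw h.sg h.sy (h.ub z' hz' i)]
    have b := nm.wp hH (h.b0 z hz i) (h.b1 z hz z' hz' hd i) (h.b2 z hz z' hz' hd i)
      ((lg.hi_le p.x p.y i).trans (le_of_eq (by ring)))
      ((lg.hi_sub p h.he i).trans (by
        have h1 : nq z' ^ 2 ≤ (nq z + nq z') ^ 2 :=
          pow_le_pow_left₀ (nq_nn _) (by linarith [nq_nn z]) 2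
        have h2 : e * dP z z' * nq z' ^ 2 ≤ e * dP z z' * (nq z + nq z') ^ 2 :=
          mul_le_mul_of_nonneg_left h1 (mul_nonneg h.he (dP_nn _ _))
        have h3 := mul_le_mul_of_nonneg_left h2 (by positivity : 0 ≤ (n : ℝ) ^ 2)
        linarith))
    refine b.trans ?_
    show _ ≤ C₂ * ((w.φ₂ (u z) + w.G (u z) * (nq z + nq z') ^ 2) * dP z z'
      + w.G (u z) * (nq z + nq z') * dQ z z' + Real.sqrt (w.φ₂ (u z)))
    have ab := nm.ab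
    apply mul_le_mul_of_nonneg_right h.hC2
    have := ab.A0
    have := ab.B0
    have := Real.sqrt_nonneg (w.φ₂ (u z))
    linarith

end Vale.Agent.P088.R2.H960.X
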