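import Vale.Agent.P088.R2.H960.X.Cel
import Vale.Agent.P088.R2.H960.X.Prof
import Vale.Agent.P088.R2.H238.C.Loc

/-!
# Zone C, region I: the level of the true weight at two points
-/

open Set Filter
open scoped ContDiff Topology Matrix

noncomputable section

namespace Vale.Agent.P088.R2.H960.X

open Vale.Agent.P088.LR Vale.Agent.P088.HY Vale.Agent.P088.R2.H644 Vale.Agent.P088.R2
open Vale.Agent.P088.R2.H31.EP
open Vale.Agent.P088.R2.H238.C (Th Te Gp Gz Gz1 Gz2 LI ww)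
open Vale.Agent.P088.R2.H960.C (Bd nq dQ dP nq_nn dQ_nn dP_nn dQ_le nx ny nm qi_le dqi_le
  hv_comp mid_va mid_vb va vb mv)
open Vale.Agent.P088.R2.H464.Cu (mid dif bf rq dg Hv)
open Vale.Agent.P088.R2.H205.CP (OI)
open Vale.Agent.P088.R2.H475 (wR th1)
open Vale.Agent.P088.R2.H313.Mu (b0 sw sz)

variable {n : ℕ} {q : Cst} {d : Pk n}

/-! ### The correction -/

theorem b0_tendsto : Tendsto (fun t => b0 1 t) atTop (𝓝 0) := by
  have h := (tendsto_rpow_neg_atTop (y := 3 / 2) (by norm_num)).comp Real.tendsto_log_atTop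
  refine h.congr fun t => ?_
  unfold b0
  simp only [Function.comp_apply, one_mul]

theorem mu_hd (h : PkOk q d) (s : ℝ) : HasDerivAt d.μ (deriv d.μ s) s :=
  ((h.ph.isμ.sm.differentiable (by simp)) s).hasDerivAt

theorem mu_hd2 (h : PkOk q d) (s : ℝ) : HasDerivAt (deriv d.μ) (iteratedDeriv 2 d.μ s) s := by
  have h1 : ContDiff ℝ ∞ (deriv d.μ) := (contDiff_infty_iff_deriv.1 h.ph.isμ.sm).2
  have h2 := ((h1.differentiable (by simp)) s).hasDerivAt
  have e : iteratedDeriv 2 d.μ s = deriv (deriv d.μ) s := by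
    rw [iteratedDeriv_succ', iteratedDeriv_one]
  rwa [e]

theorem mu_d_lip (h : PkOk q d) (s t : ℝ) :
    |deriv d.μ s - deriv d.μ t| ≤ muC 1 * b0 1 q.M₀ * |s - t| :=
  mv (I := univ) (mu_hd2 h) ordConnected_univ (fun s _ => h.ph.isμ.bj 1 s) (mem_univ s)
    (mem_univ t)

theorem mu_d_le (h : PkOk q d) (s : ℝ) : |deriv d.μ s| ≤ 1 / 8 := by
  have h1 := h.ph.isμ.d1 s
  have h2 := h.ph.isμ.d2 s
  have h3 := h.ph.b0
  rw [abs_le]
  constructor <;> linarith

/-- **`N |μ''| ≤ K` on the first pass.** -/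
theorem mu_NK (h : PkOk q d) (T : Th q) (hM : Real.exp 100 ≤ q.M₀) (hCs : 1 ≤ q.Cs)
    (hb : 2 * q.aC * (muC 1 * b0 1 q.M₀) ≤ q.cl) {u s s' N' : ℝ} (hu : u ≤ d.uth q / 2)
    (h1 : deriv d.Φ u ≤ q.aC * Real.exp u)
    (h2 : Real.exp u ≤ 4 * deriv d.Φ u ^ (13 / 5 : ℝ)) (hs : |s - u / 2| ≤ 1 / 2)
    (hs' : |s' - u / 2| ≤ 1 / 2) (hN0 : 0 ≤ N') (hN' : N' ≤ 2 * deriv d.Φ u) :
    N' * |deriv d.μ s - deriv d.μ s'| ≤ deriv (deriv d.Φ) u * |s - s'| := by
  have eN := h.top.e1 u hu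
  have eK := h.top.e2 u hu
  have hE := Real.exp_pos u
  rcases le_or_gt (Real.exp u) (8 * Real.exp 1 ^ 2 * q.Cs * deriv d.Φ₁ u) with hc | hc
  · have h3 := h.ph.low u hc
    rw [← eK] at h3
    have h4 := mu_d_lip h s s'
    have hm0 : 0 ≤ muC 1 * b0 1 q.M₀ := (abs_nonneg _).trans (h.ph.isμ.bj 1 0)
    have h5 : N' ≤ 2 * (q.aC * Real.exp u) := by linarith
    have h6 : 0 ≤ |s - s'| := abs_nonneg _
    have h7 : 0 ≤ 2 * (q.aC * Real.exp u) := hN0.trans h5
    calc N' * |deriv d.μ s - deriv d.μ s'|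
        ≤ 2 * (q.aC * Real.exp u) * (muC 1 * b0 1 q.M₀ * |s - s'|) := by
          gcongr
      _ = (2 * q.aC * (muC 1 * b0 1 q.M₀)) * Real.exp u * |s - s'| := by ring
      _ ≤ q.cl * Real.exp u * |s - s'| := by gcongr
      _ ≤ _ := mul_le_mul_of_nonneg_right h3 h6
  · have hM0 : 0 < q.M₀ := (Real.exp_pos _).trans_le hM
    have hN1 : q.M₀ ≤ deriv d.Φ₁ u := h.ph.isΦ.n1 u
    have hlog : 100 ≤ Real.log q.M₀ := by rwa [Real.le_log_iff_exp_le hM0]
    have he1 : 0 < Real.exp 1 ^ 2 := by positivity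
    -- the lower side
    have h3 : 8 * Real.exp 1 ^ 2 * (q.Cs * q.M₀) < Real.exp u := by
      refine lt_of_le_of_lt ?_ hc
      have : 8 * Real.exp 1 ^ 2 * (q.Cs * q.M₀) = 8 * Real.exp 1 ^ 2 * q.Cs * q.M₀ := by ring
      rw [this]
      exact mul_le_mul_of_nonneg_left hN1 (by positivity)
    have hCM : 0 < q.Cs * q.M₀ := by positivity
    have h4 : Real.log (q.Cs * q.M₀) + 3 < u := by
      have h5 : Real.exp 1 * Real.exp 1 ^ 2 * (q.Cs * q.M₀) < Real.exp u := by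
        refine lt_of_le_of_lt ?_ h3
        have : Real.exp 1 ≤ 8 := by
          have := Real.exp_one_lt_d9
          linarith
        gcongr
      have h6 : Real.exp (Real.log (q.Cs * q.M₀) + 3) < Real.exp u := by
        have e : Real.exp (Real.log (q.Cs * q.M₀) + 3)
            = Real.exp 1 * Real.exp 1 ^ 2 * (q.Cs * q.M₀) := by
          rw [Real.exp_add, Real.exp_log hCM, show (3 : ℝ) = 1 + (1 + 1) by norm_num,
            Real.exp_add, Real.exp_add]
          ring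
        rwa [e]
      exact Real.exp_lt_exp.1 h6
    have h5 : sw q.Cs q.M₀ + 1 ≤ u / 2 - 1 / 2 := by
      unfold sw
      linarith
    -- the upper side
    have h6 : u / 2 + 1 / 2 ≤ sz q.M₀ := by
      have h7 : Real.exp u ≤ q.M₀ ^ (261 / 100 : ℝ) := by
        refine h2.trans ?_
        rw [eN]
        exact h.ph.four u
      have h8 : u ≤ 261 / 100 * Real.log q.M₀ := by
        rw [← Real.log_rpow hM0, ← Real.log_exp u]
        exact Real.log_le_log hE h7
      unfold sz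
      linarith
    have hs1 := abs_le.1 hs
    have hs2 := abs_le.1 hs'
    have e1 := h.ph.isμ.af s (by linarith) (by linarith)
    have e2 := h.ph.isμ.af s' (by linarith) (by linarith)
    rw [e1, e2, sub_self, abs_zero, mul_zero]
    exact mul_nonneg (H238.C.K_pos h u).le (abs_nonneg _)

/-! ### The metric -/

theorem bd_TR {K : ℕ} {ε R e : ℝ} {g : MF n} (h : H657.W.TR K ε R g) (hK : 2 ≤ K) (hR : 1 ≤ R)
    (hε : 0 ≤ ε) (he : ε / R ≤ e) (x : V n) : Bd 1 ε e (fun _ => 0) g x := by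
  have hR0 : 0 < R := by linarith
  have he0 : 0 ≤ e := le_trans (by positivity) he
  have hfd : ∀ i j, fderiv ℝ (fun x => g x i j - (1 : Matrix (Fin n) (Fin n) ℝ) i j)
      = fderiv ℝ fun x => g x i j := fun i j => by
    funext x
    rw [fderiv_sub_const]
  have h00 : fderiv ℝ (fderiv ℝ fun _ : V n => (0 : ℝ)) x = 0 := by
    have e0 : (fderiv ℝ fun _ : V n => (0 : ℝ)) = fun _ => 0 := by
      funext y
      simp
    rw [e0, fderiv_fun_const]
    rfl
  refine ⟨by simp, by rw [h00]; exact (ContinuousLinearMap.opNorm_zero).le.trans he0, fun i j => ?_, fun i j => ?_,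
    fun i j => ?_⟩
  · have h1 := h.cl i j 0 (Nat.zero_le _) x
    simpa using h1
  · have h1 := h.cl i j 1 (by omega) x
    rw [norm_iteratedFDeriv_one, hfd, pow_one] at h1
    exact h1.trans (by rwa [← div_eq_mul_inv])
  · have h1 := h.cl i j 2 hK x
    rw [← norm_iteratedFDeriv_fderiv, hfd, norm_iteratedFDeriv_one] at h1
    refine h1.trans (le_trans ?_ he)
    rw [div_eq_mul_inv]
    apply mul_le_mul_of_nonneg_left _ hε
    have h2 : R⁻¹ ≤ 1 := inv_le_one_of_one_le₀ hR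
    have h3 : 0 ≤ R⁻¹ := inv_nonneg.2 hR0.le
    nlinarith

/-! ### The derivatives of `u` -/

theorem hv_lx (h : PkOk q d) (T : Th q) {z v : VV n} (hz : z.1 ∈ Gp q d) :
    Hv v (fun z => d.l z.1) (∑ i, ww n q z.1 i * v.1 i) z := by
  have d1 : HasFDerivAt (fun z : VV n => d.l z.1)
      ((fderiv ℝ d.l z.1).comp (ContinuousLinearMap.fst ℝ (V n) (V n))) z :=
    HasFDerivAt.comp z ((h.lev.sm.differentiable (by simp)) z.1).hasFDerivAt hasFDerivAt_fst
  refine ⟨d1.differentiableAt, ?_⟩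
  rw [d1.fderiv]
  exact H238.C.l_fd h T (H238.C.Gp_th h T hz) v.1

theorem hv_ly (h : PkOk q d) (T : Th q) {z v : VV n} (hz : z.2 ∈ Gp q d) :
    Hv v (fun z => d.l z.2) (∑ i, ww n q z.2 i * v.2 i) z := by
  have d1 : HasFDerivAt (fun z : VV n => d.l z.2)
      ((fderiv ℝ d.l z.2).comp (ContinuousLinearMap.snd ℝ (V n) (V n))) z :=
    HasFDerivAt.comp z ((h.lev.sm.differentiable (by simp)) z.2).hasFDerivAt hasFDerivAt_snd
  refine ⟨d1.differentiableAt, ?_⟩
  rw [d1.fderiv]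
  exact H238.C.l_fd h T (H238.C.Gp_th h T hz) v.2

/-- The midpoint as a linear map. -/
def midL (n : ℕ) : VV n →L[ℝ] V n :=
  (1 / 2 : ℝ) • (ContinuousLinearMap.fst ℝ (V n) (V n) + ContinuousLinearMap.snd ℝ (V n) (V n))

theorem hv_lm (h : PkOk q d) (T : Th q) {z v : VV n} (hz : mid z ∈ Gp q d) :
    Hv v (fun z => d.l (mid z)) (∑ i, ww n q (mid z) i * mid v i) z := by
  have d0 : HasFDerivAt (fun z : VV n => mid z) (midL n) z := (midL n).hasFDerivAt
  have d1 : HasFDerivAt (fun z : VV n => d.l (mid z)) ((fderiv ℝ d.l (mid z)).comp (midL n)) z :=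
    HasFDerivAt.comp z ((h.lev.sm.differentiable (by simp)) (mid z)).hasFDerivAt d0
  refine ⟨d1.differentiableAt, ?_⟩
  rw [d1.fderiv]
  exact H238.C.l_fd h T (H238.C.Gp_th h T hz) (mid v)

theorem muc_hd (h : PkOk q d) (s : ℝ) : HasDerivAt (d.μc q) (deriv (d.μc q) s) s :=
  (((h.ok.μs : ContDiff ℝ ∞ (d.μc q)).differentiable (by simp)) s).hasDerivAt

theorem hv_u (h : PkOk q d) (T : Th q) (E : Te n q) {z v : VV n} (hz : z ∈ Gz q d) :
    Hv v (d.u q) ((∑ i, ww n q z.1 i * v.1 i) + (∑ i, ww n q z.2 i * v.2 i) +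
      2 * (deriv (d.μc q) (d.l (mid z)) * ∑ i, ww n q (mid z) i * mid v i)) z := by
  have h1 := ((hv_lx h T (v := v) hz.1).add (hv_ly h T (v := v) hz.2.1)).add
    ((hv_comp (muc_hd h (d.l (mid z))) (hv_lm h T (v := v) hz.2.2.1)).cmul 2)
  have e : d.u q =ᶠ[𝓝 z] fun z => d.l z.1 + d.l z.2 + 2 * d.μc q (d.l (mid z)) := by
    filter_upwards [(H238.C.isOpen_Gz h T E).mem_nhds hz] with w hw
    exact H238.C.u_Gz h hw
  exact ⟨h1.d.congr_of_eventuallyEq e, by rw [e.fderiv_eq]; exact h1.e⟩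

/-- `∂_{q_i} u`. -/
def aI (q : Cst) (i : Fin n) (z : VV n) : ℝ := q.σ / (2 * q.R) * (z.1 i - z.2 i)

/-- `∂_{p_i} u`. -/
def bI (q : Cst) (d : Pk n) (i : Fin n) (z : VV n) : ℝ :=
  2 * (1 + deriv (d.μc q) (d.l (mid z))) * ww n q (mid z) i

theorem sum_single_mul (w : V n) (i : Fin n) (c : ℝ) :
    ∑ j, w j * (c • (Pi.single i 1 : V n)) j = c * w i := by
  simp only [Pi.smul_apply, Pi.single_apply, smul_eq_mul, mul_ite, mul_one, mul_zero,
    Finset.sum_ite_eq', Finset.mem_univ, if_true]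
  ring

theorem hv_ua (h : PkOk q d) (T : Th q) (E : Te n q) {z : VV n} (hz : z ∈ Gz q d) (i : Fin n) :
    Hv (va i) (d.u q) (aI q i z) z := by
  have h1 := hv_u h T E (v := va i) hz
  have e : (∑ j, ww n q z.1 j * (va (n := n) i).1 j) + (∑ j, ww n q z.2 j * (va (n := n) i).2 j) +
      2 * (deriv (d.μc q) (d.l (mid z)) * ∑ j, ww n q (mid z) j * mid (va i) j)
      = aI q i z := by
    rw [mid_va]
    have h2 : (va (n := n) i).1 = (1 / 2 : ℝ) • (Pi.single i 1 : V n) := rfl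
    have h3 : (va (n := n) i).2 = -((1 / 2 : ℝ) • (Pi.single i 1 : V n)) := rfl
    have h4 : ∑ j, ww n q z.2 j * (-((1 / 2 : ℝ) • (Pi.single i 1 : V n))) j
        = -((1 / 2) * ww n q z.2 i) := by
      rw [← sum_single_mul, ← Finset.sum_neg_distrib]
      exact Finset.sum_congr rfl fun j _ => by rw [Pi.neg_apply]; ring
    rw [h2, h3, h4, sum_single_mul]
    have h5 := congrFun (H238.C.ww_sub (q := q) z.1 z.2) i
    simp only [Pi.sub_apply, Pi.smul_apply, smul_eq_mul] at h5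
    simp only [Pi.zero_apply, mul_zero, Finset.sum_const_zero, add_zero]
    unfold aI
    have hR := T.R0
    have e2 : q.σ / (2 * q.R) * (z.1 i - z.2 i) = 1 / 2 * (q.σ / q.R * (z.1 i - z.2 i)) := by
      field_simp
    rw [e2, ← h5]
    ring
  rwa [e] at h1

theorem ww_mid (T : Th q) (z : VV n) (i : Fin n) :
    ww n q z.1 i + ww n q z.2 i = 2 * ww n q (mid z) i := by
  rw [H238.C.ww_apply, H238.C.ww_apply, H238.C.ww_apply]
  simp only [mid, Pi.smul_apply, Pi.add_apply, smul_eq_mul]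
  ring

theorem hv_ub (h : PkOk q d) (T : Th q) (E : Te n q) {z : VV n} (hz : z ∈ Gz q d) (i : Fin n) :
    Hv (vb i) (d.u q) (bI q d i z) z := by
  have h1 := hv_u h T E (v := vb i) hz
  have h0 : ∀ w : V n, ∑ j, w j * (Pi.single i 1 : V n) j = w i := fun w => by
    simp [Pi.single_apply]
  have e : (∑ j, ww n q z.1 j * (vb (n := n) i).1 j) + (∑ j, ww n q z.2 j * (vb (n := n) i).2 j) +
      2 * (deriv (d.μc q) (d.l (mid z)) * ∑ j, ww n q (mid z) j * mid (vb i) j)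
      = bI q d i z := by
    rw [mid_vb]
    have h2 : (vb (n := n) i).1 = (Pi.single i 1 : V n) := rfl
    have h3 : (vb (n := n) i).2 = (Pi.single i 1 : V n) := rfl
    rw [h2, h3, h0, h0, h0, ww_mid T]
    unfold bI
    ring
  rwa [e] at h1

end Vale.Agent.P088.R2.H960.X
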