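import Vale.Agent.P088.R2.H960.X.Cw1

/-!
# Zone C, region I: two near points of region I
-/

open Set Filter
open scoped ContDiff Topology Matrix

noncomputable section

namespace Vale.Agent.P088.R2.H960.X

open Vale.Agent.P088.LR Vale.Agent.P088.HY Vale.Agent.P088.R2.H644 Vale.Agent.P088.R2
open Vale.Agent.P088.R2.H31.EP
open Vale.Agent.P088.R2.H238.C (Th Te Gp Gz Gz1 Gz2 LI ww U₁ N₁)
open Vale.Agent.P088.R2.H960.C (Bd nq dQ dP nq_nn dQ_nn dP_nn dQ_le nx ny nm qi_le dqi_le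
  hv_comp mid_va mid_vb va vb mv nq_sq vq_norm)
open Vale.Agent.P088.R2.H464.Cu (mid dif bf rq dg Hv)
open Vale.Agent.P088.R2.H205.CP (OI)
open Vale.Agent.P088.R2.H313.Mu (b0 sw sz)

variable {n : ℕ} {q : Cst} {d : Pk n} {z z' : VV n}

theorem en_norm (hn : 1 ≤ n) (x : V n) : √(HY.sq x) ≤ n * ‖x‖ := by
  have hn' : (1 : ℝ) ≤ n := by exact_mod_cast hn
  refine H238.C.en_le_of_sq (by positivity) ?_
  have h1 : HY.sq x ≤ ∑ _j : Fin n, ‖x‖ ^ 2 := by
    unfold HY.sq
    refine Finset.sum_le_sum fun j _ => ?_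
    have h2 : |x j| ≤ ‖x‖ := norm_le_pi_norm x j
    rw [← sq_abs]
    exact pow_le_pow_left₀ (abs_nonneg _) h2 2
  rw [Finset.sum_const, Finset.card_univ, nsmul_eq_mul, Fintype.card_fin] at h1
  refine h1.trans ?_
  rw [mul_pow]
  exact mul_le_mul_of_nonneg_right (by nlinarith) (sq_nonneg _)

theorem nmh (z z' : VV n) : ‖mid z' - mid z‖ ≤ dP z z' / 2 := by
  have e : mid z' - mid z = (1 / 2 : ℝ) • (H205.CP.vp z' - H205.CP.vp z) := by
    funext i
    simp only [mid, H205.CP.vp, Pi.sub_apply, Pi.add_apply, Pi.smul_apply, smul_eq_mul]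
    ring
  rw [e, norm_smul, Real.norm_eq_abs, abs_of_pos (by norm_num : (0 : ℝ) < 1 / 2), norm_sub_rev]
  unfold dP
  linarith

theorem nq_le (L : LI q d z) (T : Th q) : nq z ≤ 3 * q.c₀ := by
  refine (vq_norm z).trans ?_
  exact L.δ

/-- Two near points of region I. -/
structure P2 (q : Cst) (d : Pk n) (z z' : VV n) : Prop where
  gz : z ∈ Gz q d
  gz' : z' ∈ Gz q d
  lm : |d.l (mid z') - d.l (mid z)| ≤ n * dP z z'
  ps : (d.u q z ≤ U₁ q ∧ z ∈ Gz1 q d ∧ z' ∈ Gz1 q d) ∨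
    (12 / 10 * d.uth q ≤ d.u q z ∧ z ∈ Gz2 q d ∧ z' ∈ Gz2 q d)

theorem p2_of (hn : 1 ≤ n) (h : PkOk q d) (T : Th q) (hR : 10 * n ≤ q.R)
    (L : LI q d z) (L' : LI q d z') (hd : dP z z' ≤ 1) : P2 q d z z' := by
  have hn' : (1 : ℝ) ≤ n := by exact_mod_cast hn
  have a1 := nq_le L T
  have a2 := nq_le L' T
  have a3 := dQ_le z z'
  have c1 := T.c1
  have hR1 := T.R1
  have b1 : ‖z'.1 - z.1‖ ≤ 1 := by
    rw [norm_sub_rev]
    refine (nx z z').trans ?_
    linarith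
  have b2 : ‖z'.2 - z.2‖ ≤ 1 := by
    rw [norm_sub_rev]
    refine (ny z z').trans ?_
    linarith
  have e1 : √(HY.sq (z'.1 - z.1)) ≤ q.R / 10 := by
    refine (en_norm hn _).trans ?_
    have := mul_le_mul_of_nonneg_left b1 (by positivity : (0 : ℝ) ≤ n)
    linarith
  have e2 : √(HY.sq (z'.2 - z.2)) ≤ q.R / 10 := by
    refine (en_norm hn _).trans ?_
    have := mul_le_mul_of_nonneg_left b2 (by positivity : (0 : ℝ) ≤ n)
    linarith
  have m1 : √(HY.sq (mid z' - mid z)) ≤ n * (dP z z' / 2) :=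
    (en_norm hn _).trans (mul_le_mul_of_nonneg_left (nmh z z') (by positivity))
  have m0 := dP_nn z z'
  refine ⟨L.gz, L'.gz, ?_, ?_⟩
  · refine (H238.C.l_lip h T L.gz.2.2.1 ?_).trans ?_
    · refine m1.trans ?_
      have : (n : ℝ) * (dP z z' / 2) ≤ n * 1 := mul_le_mul_of_nonneg_left (by linarith)
        (by positivity)
      linarith
    · have : 0 ≤ (n : ℝ) * dP z z' := by positivity
      linarith
  · rcases L.near h T e1 e2 L'.gz.2.2.2 with hq | hq
    · rcases L.pass with hp | hp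
      · exact Or.inl ⟨hq.1, hp.2, hq.2⟩
      · exfalso
        have := T.rU
        have := H238.C.uth_ge h T
        linarith [hq.1, hp.1]
    · rcases L.pass with hp | hp
      · exfalso
        have := T.rU
        have := H238.C.uth_ge h T
        linarith [hq.1, hp.1]
      · exact Or.inr ⟨hq.1, hp.2, hq.2⟩

/-! ### The slope of the correction -/

/-- `μ'(l(p))`. -/
def gam (q : Cst) (d : Pk n) (z : VV n) : ℝ := deriv (d.μc q) (d.l (mid z))

theorem gam_Gz1 (T : Th q) (hz : z ∈ Gz1 q d) : gam q d z = deriv d.μ (d.l (mid z)) := by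
  have h1 : d.l (mid z) < d.l₀ q + q.R / 2 := hz.2
  have e : d.μc q =ᶠ[𝓝 (d.l (mid z))] d.μ := by
    filter_upwards [gt_mem_nhds h1] with s hs
    exact Pk.μc_eq d q T.R0 (le_of_lt hs)
  exact e.deriv_eq

theorem gam_Gz2 (T : Th q) (hz : z ∈ Gz2 q d) : gam q d z = 0 := by
  have h1 : d.l₀ q + 105 / 100 * q.R < d.l (mid z) := hz.2.2.2
  have hR := T.R0
  have h2 : d.l₀ q + q.R < d.l (mid z) := by linarith
  have e : d.μc q =ᶠ[𝓝 (d.l (mid z))] fun _ => 0 := by
    filter_upwards [lt_mem_nhds h2] with s hs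
    exact Pk.μc_zero d q T.R0 (le_of_lt hs)
  unfold gam
  rw [e.deriv_eq]
  simp

theorem gam_le (h : PkOk q d) (T : Th q) (L : LI q d z) : |gam q d z| ≤ 1 / 8 := by
  rcases L.pass with hp | hp
  · rw [gam_Gz1 T hp.2]
    exact mu_d_le h _
  · rw [gam_Gz2 T hp.2, abs_zero]
    norm_num

theorem gam_sub (h : PkOk q d) (T : Th q) (p : P2 q d z z')
    (hb : muC 1 * b0 1 q.M₀ * n ≤ 1 / 8) : |gam q d z - gam q d z'| ≤ 1 / 8 * dP z z' := by
  have hm0 : 0 ≤ muC 1 * b0 1 q.M₀ := (abs_nonneg _).trans (h.ph.isμ.bj 1 0)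
  rcases p.ps with hp | hp
  · rw [gam_Gz1 T hp.2.1, gam_Gz1 T hp.2.2]
    refine (mu_d_lip h _ _).trans ?_
    have h1 := p.lm
    rw [abs_sub_comm] at h1
    calc muC 1 * b0 1 q.M₀ * |d.l (mid z) - d.l (mid z')|
        ≤ muC 1 * b0 1 q.M₀ * (n * dP z z') := mul_le_mul_of_nonneg_left h1 hm0
      _ = (muC 1 * b0 1 q.M₀ * n) * dP z z' := by ring
      _ ≤ _ := mul_le_mul_of_nonneg_right hb (dP_nn _ _)
  · rw [gam_Gz2 T hp.2.1, gam_Gz2 T hp.2.2, sub_self, abs_zero]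
    have := dP_nn z z'
    positivity

theorem gam_NK (h : PkOk q d) (T : Th q) (hz : z ∈ OI q d) (L : LI q d z) (L' : LI q d z')
    (p : P2 q d z z')
    (hM : Real.exp 100 ≤ q.M₀) (hCs : 1 ≤ q.Cs) (hb : 2 * q.aC * (muC 1 * b0 1 q.M₀) ≤ q.cl)
    (hu : |d.u q z - d.u q z'| ≤ 1 / 6) {N' : ℝ} (hN0 : 0 ≤ N')
    (hN' : N' ≤ 2 * deriv d.Φ (d.u q z)) :
    N' * |gam q d z - gam q d z'| ≤ deriv (deriv d.Φ) (d.u q z) * (n * dP z z') := by
  have hK := (H238.C.K_pos h (d.u q z)).le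
  rcases p.ps with hp | hp
  · rw [gam_Gz1 T hp.2.1, gam_Gz1 T hp.2.2]
    have h1 := T.rU
    have h2 := H238.C.uth_ge h T
    have hR := T.R0
    have h3 := abs_le.1 L'.p
    have h4 := abs_le.1 hu
    have h5 := mu_NK h T hM hCs hb (u := d.u q z) (s := d.l (mid z)) (s' := d.l (mid z'))
      (by linarith [hp.1]) hz.2.2.1 hz.2.2.2.1 (L.p.trans (by norm_num))
      (by rw [abs_le]; constructor <;> linarith) hN0 hN'
    refine h5.trans (mul_le_mul_of_nonneg_left ?_ hK)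
    have := p.lm
    rwa [abs_sub_comm] at this
  · rw [gam_Gz2 T hp.2.1, gam_Gz2 T hp.2.2, sub_self, abs_zero, mul_zero]
    have := dP_nn z z'
    positivity

/-! ### The difference of `u` -/

theorem sq_sub_le (z z' : VV n) :
    |HY.sq (z.1 - z.2) - HY.sq (z'.1 - z'.2)| ≤ n * ((nq z + nq z') * dQ z z') := by
  unfold HY.sq
  rw [← Finset.sum_sub_distrib]
  refine C.sum_le_c fun j => ?_
  have e : (z.1 - z.2) j ^ 2 - (z'.1 - z'.2) j ^ 2
      = ((z.1 - z.2) j + (z'.1 - z'.2) j) * ((z.1 - z.2) j - (z'.1 - z'.2) j) := by ring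
  rw [e, abs_mul]
  have h1 : |(z.1 - z.2) j| ≤ nq z := qi_le z j
  have h2 : |(z'.1 - z'.2) j| ≤ nq z' := qi_le z' j
  have h3 : |(z.1 - z.2) j - (z'.1 - z'.2) j| ≤ dQ z z' := dqi_le z z' j
  exact mul_le_mul ((abs_add_le _ _).trans (add_le_add h1 h2)) h3 (abs_nonneg _)
    (add_nonneg (nq_nn _) (nq_nn _))

theorem u_sub (h : PkOk q d) (T : Th q) (p : P2 q d z z') :
    |d.u q z - d.u q z'| ≤ 3 * n * dP z z' + n / q.R * (nq z + nq z') * dQ z z' := by
  have hR := T.R0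
  have hσ := T.σ0
  have hσ1 := T.σ1
  have hm : |d.μc q (d.l (mid z)) - d.μc q (d.l (mid z'))| ≤
      1 / 8 * |d.l (mid z) - d.l (mid z')| := by
    rcases p.ps with hz | hz
    · rw [H238.C.mu_Gz1 T hz.2.1, H238.C.mu_Gz1 T hz.2.2]
      exact H238.C.mu_lip h _ _
    · rw [H238.C.mu_Gz2 T hz.2.1, H238.C.mu_Gz2 T hz.2.2]
      simp only [sub_self, abs_zero]
      positivity
  have hl := p.lm
  rw [abs_sub_comm] at hl
  have hs := sq_sub_le z z'
  rw [H238.C.u_Gz' h T p.gz, H238.C.u_Gz' h T p.gz']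
  have e : 2 * d.l (mid z) + 2 * d.μc q (d.l (mid z)) + q.σ / (4 * q.R) * HY.sq (z.1 - z.2) -
      (2 * d.l (mid z') + 2 * d.μc q (d.l (mid z')) + q.σ / (4 * q.R) * HY.sq (z'.1 - z'.2)) =
      2 * (d.l (mid z) - d.l (mid z')) + 2 * (d.μc q (d.l (mid z)) - d.μc q (d.l (mid z'))) +
      q.σ / (4 * q.R) * (HY.sq (z.1 - z.2) - HY.sq (z'.1 - z'.2)) := by ring
  rw [e]
  refine (abs_add_three _ _ _).trans ?_
  rw [abs_mul, abs_mul, abs_mul, abs_of_pos (by norm_num : (0 : ℝ) < 2),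
    abs_of_pos (by positivity : 0 < q.σ / (4 * q.R))]
  have h1 : q.σ / (4 * q.R) * |HY.sq (z.1 - z.2) - HY.sq (z'.1 - z'.2)|
      ≤ 1 / q.R * (n * ((nq z + nq z') * dQ z z')) := by
    refine mul_le_mul ?_ hs (abs_nonneg _) (by positivity)
    rw [div_le_div_iff₀ (by positivity) hR]
    nlinarith
  have h2 : 1 / q.R * (n * ((nq z + nq z') * dQ z z'))
      = n / q.R * (nq z + nq z') * dQ z z' := by ring
  have h3 : 0 ≤ (n : ℝ) * dP z z' := mul_nonneg (Nat.cast_nonneg n) (dP_nn _ _)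
  linarith

/-! ### The derivatives -/

theorem aI_le (T : Th q) (z : VV n) (i : Fin n) : |aI q i z| ≤ 1 / q.R * nq z := by
  have hR := T.R0
  have hσ := T.σ0
  have hσ1 := T.σ1
  unfold aI
  rw [abs_mul, abs_of_pos (by positivity)]
  refine mul_le_mul ?_ (qi_le z i) (abs_nonneg _) (by positivity)
  rw [div_le_div_iff₀ (by positivity) hR]
  nlinarith

theorem aI_sub (T : Th q) (z z' : VV n) (i : Fin n) :
    |aI q i z - aI q i z'| ≤ 1 / q.R * dQ z z' := by
  have hR := T.R0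
  have hσ := T.σ0
  have hσ1 := T.σ1
  unfold aI
  rw [← mul_sub, abs_mul, abs_of_pos (by positivity)]
  refine mul_le_mul ?_ (dqi_le z z' i) (abs_nonneg _) (by positivity)
  rw [div_le_div_iff₀ (by positivity) hR]
  nlinarith

theorem ww_le (h : PkOk q d) (T : Th q) {x : V n} (hx : x ∈ Gp q d) (i : Fin n) :
    |ww n q x i| ≤ 11 / 10 := by
  have h1 := (H238.C.Gp_sq h T hx).2
  have hσ1 := T.σ1
  have h2 : ww n q x i ^ 2 ≤ HY.sq (ww n q x) := by
    unfold HY.sq
    exact Finset.single_le_sum (f := fun j => ww n q x j ^ 2) (fun j _ => sq_nonneg _)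
      (Finset.mem_univ i)
  apply abs_le_of_sq_le_sq _ (by norm_num)
  linarith

theorem ww_diff (T : Th q) (z z' : VV n) (i : Fin n) :
    |ww n q (mid z) i - ww n q (mid z') i| ≤ q.σ / q.R * (dP z z' / 2) := by
  have hR := T.R0
  have hσ := T.σ0
  have h1 := congrFun (H238.C.ww_sub (q := q) (mid z) (mid z')) i
  simp only [Pi.sub_apply, Pi.smul_apply, smul_eq_mul] at h1
  rw [h1, abs_mul, abs_of_pos (by positivity)]
  refine mul_le_mul_of_nonneg_left ?_ (by positivity)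
  have h2 : |mid z' i - mid z i| ≤ ‖mid z' - mid z‖ := norm_le_pi_norm (mid z' - mid z) i
  rw [abs_sub_comm]
  exact h2.trans (nmh z z')

theorem bI_le (h : PkOk q d) (T : Th q) (L : LI q d z) (i : Fin n) : |bI q d i z| ≤ 3 := by
  have h1 := gam_le h T L
  have h2 := ww_le h T L.gz.2.2.1 i
  unfold bI
  have h3 : |2 * (1 + deriv (d.μc q) (d.l (mid z)))| ≤ 9 / 4 := by
    have := abs_le.1 h1
    unfold gam at this
    rw [abs_le]
    constructor <;> linarith
  rw [abs_mul]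
  have := mul_le_mul h3 h2 (abs_nonneg _) (by norm_num)
  linarith

theorem bI_sub' (h : PkOk q d) (T : Th q) (L : LI q d z) (p : P2 q d z z') (i : Fin n) :
    |bI q d i z - bI q d i z'| ≤ 9 / 8 * (q.σ / q.R * dP z z') +
      11 / 5 * |gam q d z - gam q d z'| := by
  have h1 := abs_le.1 (gam_le h T L)
  have h2 := ww_le h T p.gz'.2.2.1 i
  have h3 := ww_diff T z z' i
  have e : bI q d i z - bI q d i z'
      = 2 * (1 + gam q d z) * (ww n q (mid z) i - ww n q (mid z') i)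
        + 2 * (gam q d z - gam q d z') * ww n q (mid z') i := by
    unfold bI gam
    ring
  rw [e]
  refine (abs_add_le _ _).trans (add_le_add ?_ ?_)
  · rw [abs_mul]
    have h4 : |2 * (1 + gam q d z)| ≤ 9 / 4 := by
      rw [abs_le]
      constructor <;> linarith [h1.1, h1.2]
    have := mul_le_mul h4 h3 (abs_nonneg _) (by norm_num)
    linarith
  · rw [abs_mul, abs_mul, abs_two]
    have := mul_le_mul_of_nonneg_left h2 (by positivity : 0 ≤ 2 * |gam q d z - gam q d z'|)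
    linarith

theorem bI_sub (h : PkOk q d) (T : Th q) (L : LI q d z) (p : P2 q d z z')
    (hb : muC 1 * b0 1 q.M₀ * n ≤ 1 / 8) (i : Fin n) :
    |bI q d i z - bI q d i z'| ≤ dP z z' := by
  have h1 := bI_sub' h T L p i
  have h2 := gam_sub h T p hb
  have hR := T.R0
  have hR1 := T.R1
  have hσ := T.σ0
  have hσ1 := T.σ1
  have h3 : q.σ / q.R ≤ 1 / 2 := by
    rw [div_le_div_iff₀ hR (by norm_num)]
    linarith
  have h4 := mul_le_mul_of_nonneg_right h3 (dP_nn z z')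
  linarith [dP_nn z z']

theorem bI_NK (hn : 1 ≤ n) (h : PkOk q d) (T : Th q) (hz : z ∈ OI q d) (L : LI q d z)
    (L' : LI q d z') (p : P2 q d z z')
    (hM : Real.exp 100 ≤ q.M₀) (hCs : 1 ≤ q.Cs) (hb : 2 * q.aC * (muC 1 * b0 1 q.M₀) ≤ q.cl)
    (hNR : N₁ q * q.σ ≤ q.R) (hu : |d.u q z - d.u q z'| ≤ 1 / 6) (i : Fin n) :
    deriv d.Φ (d.u q z') * |bI q d i z - bI q d i z'|
      ≤ 5 * n * (deriv (deriv d.Φ) (d.u q z) * dP z z') := by
  have hn' : (1 : ℝ) ≤ n := by exact_mod_cast hn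
  have hR := T.R0
  have hR1 := T.R1
  have hσ := T.σ0
  have hσ1 := T.σ1
  have hK := (H238.C.K_pos h (d.u q z)).le
  have ha := H238.C.uth_uta h T
  have hth := H238.C.uth_ge h T
  have hN0 := (H238.C.N_pos h T (d.u q z')).le
  have hNz := H238.C.N_pos h T (d.u q z)
  have hN' : deriv d.Φ (d.u q z') ≤ 2 * deriv d.Φ (d.u q z) := by
    have h1 := H238.C.N_comp h T (u := d.u q z') (v := d.u q z) (by linarith [L'.nu.ut])
      (by linarith [L.nu.ut])
    rw [abs_sub_comm] at hu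
    have h2 : Real.exp (41 / 20 * |d.u q z' - d.u q z|) ≤ 2 := by
      have h3 := C.exp_two (u := 41 / 20 * |d.u q z' - d.u q z|) (v := 0) (by
        rw [sub_zero, abs_of_nonneg (by positivity)]
        linarith)
      rwa [Real.exp_zero, mul_one] at h3
    have h3 := mul_le_mul_of_nonneg_left h2 hNz.le
    linarith
  have h1 := bI_sub' h T L p i
  have h2 := gam_NK h T hz L L' p hM hCs hb hu hN0 hN'
  have h3 : deriv d.Φ (d.u q z') * (q.σ / q.R) ≤ 2 * deriv (deriv d.Φ) (d.u q z) := by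
    rcases p.ps with hp | hp
    · have h4 := T.rU
      have h5 := H238.C.N_le h T (u := d.u q z) (by linarith [hp.1])
      have h6 : deriv d.Φ (d.u q z') * (q.σ / q.R) ≤ 2 * N₁ q * (q.σ / q.R) :=
        mul_le_mul_of_nonneg_right (by linarith) (by positivity)
      have h7 : 2 * N₁ q * (q.σ / q.R) ≤ 2 := by
        have : 2 * N₁ q * (q.σ / q.R) = 2 * ((N₁ q * q.σ) / q.R) := by ring
        rw [this]
        have : (N₁ q * q.σ) / q.R ≤ 1 := by rwa [div_le_one hR]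
        linarith
      have h8 : 1 ≤ deriv (deriv d.Φ) (d.u q z) := by
        refine le_trans ?_ L.nu.Kl
        exact Real.one_le_rpow (T.M1.trans L.nu.N1) (by norm_num)
      linarith
    · have h4 := h.top.x1 (d.u q z) (by linarith [hp.1]) (by linarith [L.nu.ut])
      have h5 : q.σ / q.R ≤ 1 := by
        rw [div_le_one hR]; linarith
      have h6 := mul_le_mul hN' h5 (by positivity) (by linarith)
      linarith
  calc deriv d.Φ (d.u q z') * |bI q d i z - bI q d i z'|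
      ≤ deriv d.Φ (d.u q z') * (9 / 8 * (q.σ / q.R * dP z z')
        + 11 / 5 * |gam q d z - gam q d z'|) := mul_le_mul_of_nonneg_left h1 hN0
    _ = 9 / 8 * ((deriv d.Φ (d.u q z') * (q.σ / q.R)) * dP z z')
        + 11 / 5 * (deriv d.Φ (d.u q z') * |gam q d z - gam q d z'|) := by ring
    _ ≤ 9 / 8 * ((2 * deriv (deriv d.Φ) (d.u q z)) * dP z z')
        + 11 / 5 * (deriv (deriv d.Φ) (d.u q z) * (n * dP z z')) := by
        have := mul_le_mul_of_nonneg_right h3 (dP_nn z z')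
        linarith
    _ ≤ _ := by
        have h4 : 0 ≤ deriv (deriv d.Φ) (d.u q z) * dP z z' := mul_nonneg hK (dP_nn _ _)
        have h5 := mul_le_mul_of_nonneg_right hn' h4
        linarith

theorem bI_ge (hn : 1 ≤ n) (h : PkOk q d) (T : Th q) (L : LI q d z) :
    ∃ i, 1 / (2 * n) ≤ |bI q d i z| := by
  have hn' : (1 : ℝ) ≤ n := by exact_mod_cast hn
  have h1 := (H238.C.Gp_sq h T L.gz.2.2.1).1
  have hσ := T.σ0
  have hσ1 := T.σ1
  by_contra hc
  push Not at hc
  have h2 : ∀ i, |ww n q (mid z) i| ≤ 1 / (2 * n) := by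
    intro i
    have h3 := (hc i).le
    have h4 := abs_le.1 (gam_le h T L)
    unfold bI at h3
    rw [abs_mul] at h3
    have h5 : 1 ≤ |2 * (1 + deriv (d.μc q) (d.l (mid z)))| := by
      unfold gam at h4
      rw [abs_of_nonneg (by linarith [h4.1])]
      linarith [h4.1]
    have h6 := mul_le_mul_of_nonneg_right h5 (abs_nonneg (ww n q (mid z) i))
    linarith
  have h3 : HY.sq (ww n q (mid z)) ≤ n * (1 / (2 * n)) ^ 2 := by
    have h4 : HY.sq (ww n q (mid z)) ≤ ∑ _j : Fin n, (1 / (2 * (n : ℝ))) ^ 2 := by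
      unfold HY.sq
      refine Finset.sum_le_sum fun j _ => ?_
      rw [← sq_abs]
      exact pow_le_pow_left₀ (abs_nonneg _) (h2 j) 2
    rwa [Finset.sum_const, Finset.card_univ, nsmul_eq_mul, Fintype.card_fin] at h4
  have h4 : (n : ℝ) * (1 / (2 * n)) ^ 2 = 1 / (4 * n) := by
    field_simp
    norm_num
  have h5 : 1 / (4 * (n : ℝ)) ≤ 1 / 4 := by
    apply one_div_le_one_div_of_le (by norm_num)
    linarith
  rw [h4] at h3
  linarith

end Vale.Agent.P088.R2.H960.X
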